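import Crest.Agent.N111.Stmts

/-!
# Row 111, module I: the related structures (duality, twist, conjugation) exist; tightness is
transported (helper60)
-/

set_option autoImplicit false
set_option linter.unusedSectionVars false

namespace Crest.Agent.N111

open MeasureTheory Topology Filter Matrix
open scoped InnerProductSpace

namespace RelAux

/-! ### the duality -/

section dl
variable {R : Type} [CommRing R]

lemma dl_apply (g : Matrix.SpecialLinearGroup (Fin 3) R) (i j : Fin 3) :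
    (dl g : Matrix.SpecialLinearGroup (Fin 3) R) i j = (g⁻¹ : Matrix.SpecialLinearGroup (Fin 3) R) j i :=
  rfl

lemma dl_inv_apply (g : Matrix.SpecialLinearGroup (Fin 3) R) (i j : Fin 3) :
    ((dl g)⁻¹ : Matrix.SpecialLinearGroup (Fin 3) R) i j = g j i := by
  rw [← map_inv, dl_apply, inv_inv]

lemma dl_dl (g : Matrix.SpecialLinearGroup (Fin 3) R) : dl (dl g) = g := by
  ext i j
  rw [dl_apply, dl_inv_apply]

end dl

lemma dl_tv {i j : Fin 3} (h : i ≠ j) (b : ℝ) : dl (tv h b) = tv h.symm (-b) := by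
  ext k l
  rw [dl_apply, tv_inv, tv_apply, tv_apply]
  congr 1
  · simp only [eq_comm]
  · simp only [and_comm]

lemma dl_dg (a b : ℝ) : dl (dg a b) = dg (-a) (-b) := by
  ext k l
  rw [dl_apply, dg_inv, dg_apply, dg_apply]
  by_cases h : k = l
  · subst h; rfl
  · rw [if_neg h, if_neg (Ne.symm h)]

lemma dl_al (s : ℝ) : dl (al s) = (al s)⁻¹ := by rw [al, dl_dg, dg_inv]

lemma ι_dl (μ : Γ) : ι (dl μ) = dl (ι μ) := by
  ext i j
  rw [ι_apply, dl_apply, dl_apply, ← map_inv, ι_apply]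

lemma nm_congr_transpose {g h : G} (e : ∀ i j, g i j = h j i) : nm g = nm h := by
  have key : ∀ g h : G, (∀ i j, g i j = h j i) → nm g ≤ nm h := fun g h e =>
    (pi_norm_le_iff_of_nonneg (norm_nonneg _)).2 fun i =>
      (pi_norm_le_iff_of_nonneg (norm_nonneg _)).2 fun j => by
        change ‖g i j‖ ≤ _
        rw [e]
        exact (norm_le_pi_norm (fun i => h j i) i).trans
          (norm_le_pi_norm (fun i j => h i j : Fin 3 → Fin 3 → ℝ) j)
  exact le_antisymm (key g h e) (key h g fun i j => (e j i).symm)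

lemma nm_dl (g : G) : nm (dl g) = nm g⁻¹ := nm_congr_transpose (dl_apply g)

lemma nm_dl_inv (g : G) : nm (dl g)⁻¹ = nm g := nm_congr_transpose (dl_inv_apply g)

lemma continuous_dl : Continuous (dl : G →* G) :=
  continuous_G fun i j => (continuous_entry j i).comp continuous_inv

/-- the shells are invariant under transposition -/
lemma tr_mem_Sh {L R : ℝ} {μ : Γ} : (dl μ)⁻¹ ∈ Sh L R ↔ μ ∈ Sh L R := by
  simp only [Sh, Set.mem_ofPred_eq, inv_inv, map_inv, ι_dl, nm_dl, nm_dl_inv]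

/-- the transposition of `Γ` -/
def trE : Γ ≃ Γ where
  toFun μ := (dl μ)⁻¹
  invFun μ := (dl μ)⁻¹
  left_inv μ := by simp only [map_inv, inv_inv, dl_dl]
  right_inv μ := by simp only [map_inv, inv_inv, dl_dl]

/-- an involutive homomorphism as an equivalence -/
def invE {A : Type} [Group A] (b : A →* A) (hb : ∀ x, b (b x) = x) : A ≃ A := ⟨b, b, hb, hb⟩

/-! ### conjugation by a unitary involution -/

variable {K : Type} [NormedAddCommGroup K] [InnerProductSpace ℂ K] [CompleteSpace K]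

/-- a unitary involution -/
structure UI (s : K →L[ℂ] K) : Prop where
  sa : star s = s
  ss : s * s = 1

namespace UI

variable {s : K →L[ℂ] K} (h : UI s)
include h

lemma apply_apply (v : K) : s (s v) = v := by
  rw [← mul_apply_eq_comp, h.ss]; rfl

lemma inner_left (v w : K) : ⟪s v, w⟫_ℂ = ⟪v, s w⟫_ℂ := by
  conv_lhs => rw [← h.sa]
  exact ContinuousLinearMap.adjoint_inner_left s w v

lemma inner_map (v w : K) : ⟪s v, s w⟫_ℂ = ⟪v, w⟫_ℂ := by rw [h.inner_left, h.apply_apply]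

lemma norm_map (v : K) : ‖s v‖ = ‖v‖ :=
  (LinearMap.norm_map_iff_inner_map_map (s : K →ₗ[ℂ] K)).2 h.inner_map v

lemma mul_mul (T : K →L[ℂ] K) : s * (s * T) = T := by rw [← mul_assoc, h.ss, one_mul]

/-- conjugation as a star algebra homomorphism -/
noncomputable def cj : (K →L[ℂ] K) →⋆ₐ[ℂ] (K →L[ℂ] K) where
  toFun T := s * T * s
  map_one' := by rw [mul_one, h.ss]
  map_mul' A B := by simp only [mul_assoc, h.mul_mul]
  map_zero' := by simp
  map_add' A B := by simp only [mul_add, add_mul]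
  commutes' c := by simp [Algebra.algebraMap_eq_smul_one, h.ss]
  map_star' T := by simp only [star_mul, h.sa, mul_assoc]

lemma cj_def (T : K →L[ℂ] K) : h.cj T = s * T * s := rfl

lemma cj_apply (T : K →L[ℂ] K) (v : K) : h.cj T v = s (T (s v)) := rfl

lemma cj_apply_s (T : K →L[ℂ] K) (v : K) : h.cj T (s v) = s (T v) := by
  rw [cj_apply, h.apply_apply]

lemma cj_cj (T : K →L[ℂ] K) : h.cj (h.cj T) = T := by
  simp only [cj_def, mul_assoc, h.mul_mul, h.ss, mul_one]

lemma cj_surj (T : K →L[ℂ] K) : ∃ T', T = h.cj T' := ⟨h.cj T, (h.cj_cj T).symm⟩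

lemma surj (v : K) : ∃ w, v = s w := ⟨s v, (h.apply_apply v).symm⟩

lemma commute_iff {A B : K →L[ℂ] K} : Commute (h.cj A) (h.cj B) ↔ Commute A B :=
  ⟨fun e => by simpa only [h.cj_cj] using e.map h.cj, fun e => e.map h.cj⟩

lemma mem_centralizer {C : Set (K →L[ℂ] K)} {T : K →L[ℂ] K} :
    h.cj T ∈ (h.cj '' C).centralizer ↔ T ∈ C.centralizer := by
  simp only [Set.mem_centralizer_iff, Set.forall_mem_image]
  exact forall₂_congr fun a _ => h.commute_iff

lemma nonneg {T : K →L[ℂ] K} (hT : 0 ≤ T) : 0 ≤ h.cj T := by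
  have := star_left_conjugate_nonneg hT s
  rwa [h.sa] at this

lemma dense_span {A B : Set K} (hA : Dense (Submodule.span ℂ A : Set K))
    (hAB : ∀ v ∈ A, s v ∈ B) : Dense (Submodule.span ℂ B : Set K) := by
  have h1 : DenseRange s := Function.Surjective.denseRange fun v => ⟨s v, h.apply_apply v⟩
  refine (h1.dense_image s.continuous hA).mono ?_
  rintro _ ⟨v, hv, rfl⟩
  exact Submodule.span_mono (Set.image_subset_iff.2 hAB)
    (Submodule.apply_mem_span_image_of_mem_span (s : K →ₗ[ℂ] K) hv)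

lemma wtends {α : Type*} {l : Filter α} {T : α → K →L[ℂ] K} {T₀ : K →L[ℂ] K}
    (hT : WTends l T T₀) : WTends l (fun a => h.cj (T a)) (h.cj T₀) := fun w v => by
  simp only [cj_apply, ← h.inner_left]
  exact hT _ _

/-- conjugate representation -/
noncomputable def rep {A : Type*} [Group A] (U : URep A K) : URep A K :=
  URep.mk' (fun g => h.cj (U g)) (by simp) (by simp) fun g v => by
    rw [cj_apply, h.norm_map, U.norm_map, h.norm_map]

lemma rep_apply {A : Type*} [Group A] (U : URep A K) (g : A) : h.rep U g = h.cj (U g) := rfl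

/-- the conjugate structure -/
noncomputable def ind (I : Ind K) : Ind K where
  U := h.rep I.U
  ρ := h.rep I.ρ
  C := h.cj '' I.C
  j := h.cj I.j
  ξ := s I.ξ
  y g := h.cj (I.y g)
  cont v := s.continuous.comp (I.cont (s v))
  Uρ g μ := (I.Uρ g μ).map h.cj
  one_C := ⟨1, I.one_C, map_one _⟩
  mul_C := by
    rintro _ ⟨a, ha, rfl⟩ _ ⟨b, hb, rfl⟩
    exact ⟨a * b, I.mul_C a ha b hb, map_mul _ _ _⟩
  star_C := by
    rintro _ ⟨a, ha, rfl⟩
    exact ⟨star a, I.star_C a ha, map_star _ _⟩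
  conj_C := by
    rintro _ ⟨a, ha, rfl⟩ g
    exact ⟨_, I.conj_C a ha g, by simp only [map_mul, rep_apply]⟩
  Cρ := by
    rintro _ ⟨a, ha, rfl⟩ μ
    exact (I.Cρ a ha μ).map h.cj
  Cj := by
    rintro _ ⟨a, ha, rfl⟩
    exact (I.Cj a ha).map h.cj
  j_sa := by rw [← map_star, I.j_sa]
  pars η := by
    obtain ⟨η, rfl⟩ := h.surj η
    simp only [rep_apply, h.cj_apply_s, h.norm_map]
    exact I.pars η
  ξ_ne e := I.ξ_ne (by rw [← h.apply_apply I.ξ, e, map_zero])
  dense := h.dense_span I.dense (by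
    rintro _ ⟨a, ha, μ, rfl⟩
    exact ⟨_, ⟨a, ha, rfl⟩, μ, by simp only [rep_apply, h.cj_apply_s]⟩)
  bes Y hY F := by
    obtain ⟨Y, rfl⟩ := h.cj_surj Y
    simp only [rep_apply, ← map_star, h.cj_apply_s, h.norm_map]
    exact I.bes Y (h.mem_centralizer.1 hY) F
  sym T hT hρ μ := by
    obtain ⟨T, rfl⟩ := h.cj_surj T
    simp only [rep_apply, ← map_star, h.cj_apply_s, h.norm_map]
    exact I.sym T (h.mem_centralizer.1 hT) (fun μ => h.commute_iff.1 (hρ μ)) μ
  y_N g := h.mem_centralizer.2 (I.y_N g)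
  y_ρ g μ := (I.y_ρ g μ).map h.cj
  y_un g := Unitary.map_mem h.cj (I.y_un g)
  V_j g := by
    simp only [rep_apply, ← map_star, ← map_mul]
    exact (I.V_j g).map h.cj
  V_ξ g := by simp only [rep_apply, ← map_star, h.cj_apply_s, I.V_ξ]
  erg T hT hρ i k hik hU := by
    obtain ⟨T, rfl⟩ := h.cj_surj T
    obtain ⟨c, rfl⟩ := I.erg T (h.mem_centralizer.1 hT) (fun μ => h.commute_iff.1 (hρ μ)) i k hik
      fun b => h.commute_iff.1 (hU b)
    exact ⟨c, by rw [map_smul, map_one]⟩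
  mix T hT hρ a b i k ht := by
    obtain ⟨T, rfl⟩ := h.cj_surj T
    have := h.wtends (I.mix T (h.mem_centralizer.1 hT) (fun μ => h.commute_iff.1 (hρ μ)) a b i k ht)
    simpa only [rep_apply, h.cj_apply_s, h.norm_map, h.inner_map, map_mul, map_smul, map_one]
      using this
  trk := by
    obtain ⟨ω, h1, h2, h3⟩ := I.trk
    refine ⟨ω ∘ₗ h.cj.toAlgHom.toLinearMap, ?_, fun T hT => h2 _ (h.nonneg hT), fun T hT hU μ => ?_⟩
    · change ω (h.cj 1) = 1
      rw [map_one, h1]
    · obtain ⟨T, rfl⟩ := h.cj_surj T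
      change ω (h.cj _) = ω (h.cj _)
      simp only [rep_apply, ← map_mul, h.cj_cj]
      exact h3 T (h.mem_centralizer.1 hT) (fun g => h.commute_iff.1 (hU g)) μ
  sep := h.dense_span I.sep (by
    rintro _ ⟨⟨a, ha, μ, rfl⟩, B, R, hB⟩
    refine ⟨⟨_, ⟨a, ha, rfl⟩, μ, by simp only [rep_apply, h.cj_apply_s]⟩, B, R,
      fun Y hY n g hg => ?_⟩
    obtain ⟨Y, rfl⟩ := h.cj_surj Y
    simp only [rep_apply, ← map_star, h.cj_apply_s, h.norm_map]
    exact hB Y (h.mem_centralizer.1 hY) n g hg)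

end UI

/-! ### precomposition -/

/-- precomposition of the target representation -/
noncomputable def twρ (I : Ind K) (b : Γ →* Γ) (hb : ∀ μ, b (b μ) = μ) : Ind K :=
  { I with
    ρ := I.ρ.comp b
    Uρ := fun g μ => I.Uρ g (b μ)
    Cρ := fun a ha μ => I.Cρ a ha (b μ)
    pars := fun η => by
      simp only [URep.comp_apply, map_inv]
      exact (invE b hb).hasSum_iff.2 (I.pars η)
    dense := I.dense.mono (Submodule.span_mono (by
      rintro _ ⟨a, ha, μ, rfl⟩
      exact ⟨a, ha, b μ, by rw [URep.comp_apply, hb]⟩))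
    bes := fun Y hY F => by
      have := I.bes Y hY (F.map (invE b hb).toEmbedding)
      rw [Finset.sum_map] at this
      simp only [URep.comp_apply, map_inv]
      exact this
    sym := fun T hT hρ μ => by
      simp only [URep.comp_apply, map_inv]
      exact I.sym T hT (fun μ => by simpa only [URep.comp_apply, hb] using hρ (b μ)) (b μ)
    y_ρ := fun g μ => I.y_ρ g (b μ)
    erg := fun T hT hρ => I.erg T hT fun μ => by simpa only [URep.comp_apply, hb] using hρ (b μ)
    mix := fun T hT hρ => I.mix T hT fun μ => by simpa only [URep.comp_apply, hb] using hρ (b μ)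
    trk := by
      obtain ⟨ω, h1, h2, h3⟩ := I.trk
      refine ⟨ω, h1, h2, fun T hT hU μ => ?_⟩
      simp only [URep.comp_apply, map_inv]
      exact h3 T hT hU (b μ)
    sep := I.sep.mono (Submodule.span_mono (by
      rintro _ ⟨⟨a, ha, μ, rfl⟩, hB⟩
      exact ⟨⟨a, ha, b μ, by rw [URep.comp_apply, hb]⟩, hB⟩)) }

/-- precomposition of `U` with the duality -/
noncomputable def twU (I : Ind K) : Ind K :=
  { I with
    U := I.U.comp dl
    y := fun g => I.y (dl g)
    cont := I.cont.comp continuous_dl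
    Uρ := fun g μ => I.Uρ (dl g) μ
    conj_C := fun a ha g => by
      simp only [URep.comp_apply, map_inv]
      exact I.conj_C a ha (dl g)
    y_N := fun g => I.y_N (dl g)
    y_ρ := fun g μ => I.y_ρ (dl g) μ
    y_un := fun g => I.y_un (dl g)
    V_j := fun g => I.V_j (dl g)
    V_ξ := fun g => I.V_ξ (dl g)
    erg := fun T hT hρ i k h hU => I.erg T hT hρ k i h.symm fun b => by
      simpa only [URep.comp_apply, dl_tv, neg_neg] using hU (-b)
    mix := fun T hT hρ a b i k ht => by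
      have := I.mix T hT hρ (fun n => -a n) (fun n => -b n) k i
        (ht.congr fun n => by simp only [dgl_neg]; ring)
      simpa only [URep.comp_apply, map_inv, dl_dg] using this
    trk := by
      obtain ⟨ω, h1, h2, h3⟩ := I.trk
      exact ⟨ω, h1, h2, fun T hT hU => h3 T hT fun g => by
        simpa only [URep.comp_apply, dl_dl] using hU (dl g)⟩
    sep := I.sep.mono (Submodule.span_mono (by
      rintro η ⟨h1, B, R, hB⟩
      refine ⟨h1, B, R, fun Y hY n g hg => hB Y hY n (fun i => dl (g i)) fun i k hik => ?_⟩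
      rw [← map_inv, ← map_mul, nm_dl, _root_.mul_inv_rev, inv_inv]
      exact hg k i hik.symm)) }

end RelAux

open RelAux

theorem rel : RelStmt := by
  intro K _ _ _ I a b s ha hb hs hss
  have h : UI s := ⟨hs, hss⟩
  have hb' : ∀ μ, b (b μ) = μ := by
    rcases hb with rfl | rfl
    · exact fun _ => rfl
    · exact dl_dl
  rcases ha with rfl | rfl
  · exact ⟨h.ind (twρ I b hb'), fun _ => rfl, fun _ => rfl, rfl, rfl, rfl⟩
  · exact ⟨h.ind (twU (twρ I b hb')), fun _ => rfl, fun _ => rfl, rfl, rfl, rfl⟩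

namespace Ind

variable {K : Type} [NormedAddCommGroup K] [InnerProductSpace ℂ K] [CompleteSpace K] {I I' : Ind K}

/-- `U g ξ` and `y g ξ` have the same position amplitudes -/
lemma norm_j_U (I : Ind K) (g : G) (μ : Γ) :
    ‖I.j (I.ρ μ (I.U g I.ξ))‖ = ‖I.j (I.ρ μ (I.y g I.ξ))‖ := by
  have hy := I.y_un g
  have hV : I.U g * star (I.y g) ∈ unitary (K →L[ℂ] K) :=
    mul_mem (I.U.mem_unitary g) (Unitary.star_mem hy)
  have hc : Commute (I.U g * star (I.y g)) (I.ρ μ) := by
    refine (I.Uρ g μ).mul_left ?_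
    have := (I.y_ρ g μ⁻¹).star_star
    rwa [URep.star_apply, inv_inv] at this
  have e : I.j * I.ρ μ * I.U g = I.U g * star (I.y g) * (I.j * I.ρ μ * I.y g) := by
    rw [← mul_assoc, (((I.V_j g).mul_right hc)).eq, mul_assoc _ _ (I.y g), mul_assoc (I.U g),
      Unitary.star_mul_self_of_mem hy, mul_one]
  change ‖(I.j * I.ρ μ * I.U g) I.ξ‖ = ‖(I.j * I.ρ μ * I.y g) I.ξ‖
  rw [e, mul_apply_eq_comp, ContinuousLinearMap.norm_map_of_mem_unitary hV]

lemma star_y_ξ (I : Ind K) (g : G) : star (I.y g) I.ξ = I.U g⁻¹ I.ξ := by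
  conv_rhs => rw [← I.V_ξ g]
  rw [URep.inv_apply_apply]

/-- inversion symmetry of the position amplitudes -/
lemma norm_j_U_inv (I : Ind K) (g : G) (μ : Γ) :
    ‖I.j (I.ρ μ⁻¹ (I.U g I.ξ))‖ = ‖I.j (I.ρ μ (I.U g⁻¹ I.ξ))‖ := by
  rw [I.norm_j_U, I.sym _ (I.y_N g) (I.y_ρ g), I.star_y_ξ]

lemma IsDual.ms (h : I.IsDual I') (k : ℕ) (F : Γ → ℝ) :
    I'.ms k F = I.ms k fun μ => F (dl μ)⁻¹ := by
  rw [Ind.ms, Ind.ms, ← trE.tsum_eq]
  refine tsum_congr fun μ => ?_
  change F (dl μ)⁻¹ * ‖I'.j (I'.ρ (dl μ)⁻¹⁻¹ _)‖ ^ 2 = _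
  rw [h.j, h.ρ, h.U, h.ξ, inv_inv, dl_dl, dl_al, I.norm_j_U_inv]
  simp only [one_mul, mul_one, one_apply_eq_self]

lemma IsConj.ms {s : K →L[ℂ] K} (h : I.IsConj I' s) (hs : UI s) (k : ℕ) (F : Γ → ℝ) :
    I'.ms k F = I.ms k F := by
  rw [Ind.ms, Ind.ms]
  refine tsum_congr fun μ => ?_
  rw [h.j, h.ρ, h.U, h.ξ]
  simp only [← hs.cj_def, hs.cj_apply_s, hs.norm_map, MonoidHom.id_apply]

end Ind

theorem tightRel : TightRelStmt := by
  intro K _ _ _ I I' L hT
  refine ⟨fun h => ⟨hT.1, fun ε hε => ?_⟩, fun s hs hss h => ⟨hT.1, fun ε hε => ?_⟩⟩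
  · obtain ⟨R, hR⟩ := hT.2 ε hε
    refine ⟨R, hR.mono fun k hk => ?_⟩
    rw [h.ms]
    convert hk using 3 with μ
    by_cases hμ : μ ∈ Sh (L k) R
    · rw [Set.indicator_of_notMem (s := (Sh (L k) R)ᶜ) (a := μ) (not_not.2 hμ),
        Set.indicator_of_notMem (s := (Sh (L k) R)ᶜ) (not_not.2 (tr_mem_Sh.2 hμ))]
    · rw [Set.indicator_of_mem (s := (Sh (L k) R)ᶜ) (a := μ) hμ,
        Set.indicator_of_mem (s := (Sh (L k) R)ᶜ) (mt tr_mem_Sh.1 hμ)]
  · obtain ⟨R, hR⟩ := hT.2 ε hε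
    exact ⟨R, hR.mono fun k hk => by rwa [h.ms ⟨hs, hss⟩]⟩

end Crest.Agent.N111
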