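import Crest.Agent.N111.I.AmenB

/-!
# Row 111: `AmenStmt`.  The action of `Γ` on flags is amenable (helper60)
-/

set_option autoImplicit false
set_option linter.unusedSectionVars false

namespace Crest.Agent.N111

namespace AmenAux

open MeasureTheory Topology Filter Matrix

/-- the orthogonal frame of a flag -/
def fr (z : V × V) : Fin 3 → V := ![z.1, z.2 ⨯₃ z.1, z.2]

/-- the normalised frame -/
noncomputable def fu (z : V × V) (i : Fin 3) : V := nrm (fr z i)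

lemma fr_ne {z : V × V} (hz : z ∈ Fl') (i : Fin 3) : fr z i ≠ 0 := by
  fin_cases i
  · exact hz.1
  · intro h
    obtain ⟨s, hs⟩ := exists_smul_of_cross_eq_zero hz.2.1 h
    have h1 := hz.2.2
    rw [hs, smul_dotProduct, smul_eq_mul, mul_eq_zero, dotProduct_self_eq_zero] at h1
    rcases h1 with h1 | h1
    · exact hz.1 (by rw [hs, h1, zero_smul])
    · exact hz.2.1 h1
  · exact hz.2.1

lemma norm_fu {z : V × V} (hz : z ∈ Fl') (i : Fin 3) : ‖fu z i‖ = 1 := norm_nrm (fr_ne hz i)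

lemma one_le_dot {z : V × V} (hz : z ∈ Fl') (i : Fin 3) : 1 ≤ fu z i ⬝ᵥ fu z i := by
  have := norm_sq_le_dot (fu z i)
  rwa [norm_fu hz, one_pow] at this

/-- triangularity -/
lemma tri {z : V × V} (hz : z ∈ Fl') (g : G) {i j : Fin 3} (h : i < j) :
    ac g (fu z i) ⬝ᵥ fu (lin g z) j = 0 := by
  have : ac g (fr z i) ⬝ᵥ fr (lin g z) j = 0 := by
    fin_cases i <;> fin_cases j <;> simp at h
    · exact dot_cross_self _ _
    · exact (ac_dot_ac_dl g _ _).trans hz.2.2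
    · refine (ac_dot_ac_dl g _ _).trans ?_
      rw [dotProduct_comm]
      exact dot_self_cross _ _
  simp only [fu, nrm, ac_smul, smul_dotProduct, dotProduct_smul, this, smul_zero]

lemma orth {z : V × V} (hz : z ∈ Fl') {i j : Fin 3} (h : i ≠ j) : fu z i ⬝ᵥ fu z j = 0 := by
  rcases lt_or_gt_of_ne h with h | h
  · simpa only [ac_one, lin_one] using tri hz 1 h
  · rw [dotProduct_comm]
    simpa only [ac_one, lin_one] using tri hz 1 h

lemma expand {z : V × V} (hz : z ∈ Fl') (v : V) :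
    v = ∑ i, (v ⬝ᵥ fu z i / (fu z i ⬝ᵥ fu z i)) • fu z i := by
  let M : Matrix (Fin 3) (Fin 3) ℝ := Matrix.of (fu z)
  let M' : Matrix (Fin 3) (Fin 3) ℝ := Matrix.of fun k i => fu z i k / (fu z i ⬝ᵥ fu z i)
  have h1 : M * M' = 1 := by
    ext i j
    have : (M * M') i j = fu z i ⬝ᵥ fu z j / (fu z j ⬝ᵥ fu z j) := by
      simp only [M, M', Matrix.mul_apply, Matrix.of_apply, ← mul_div_assoc, ← Finset.sum_div]
      rfl
    rw [this, Matrix.one_apply]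
    split_ifs with h
    · rw [h, div_self (by linarith [one_le_dot hz j])]
    · rw [orth hz h, zero_div]
  have h2 : M' * M = 1 := mul_eq_one_comm.1 h1
  have h3 : v = (v ᵥ* M') ᵥ* M := by rw [vecMul_vecMul, h2, vecMul_one]
  conv_lhs => rw [h3, vecMul_eq_sum]
  refine Finset.sum_congr rfl fun i _ => ?_
  congr 1
  simp only [M', vecMul, dotProduct, Matrix.of_apply, ← mul_div_assoc, ← Finset.sum_div]

lemma abs_coef_le {z : V × V} (hz : z ∈ Fl') (v : V) (i : Fin 3) :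
    |v ⬝ᵥ fu z i / (fu z i ⬝ᵥ fu z i)| ≤ 3 * ‖v‖ := by
  have h1 := one_le_dot hz i
  have h2 := abs_dot_le v (fu z i)
  rw [norm_fu hz, mul_one] at h2
  rw [abs_div, abs_of_pos (a := fu z i ⬝ᵥ fu z i) (by linarith)]
  exact (div_le_self (abs_nonneg _) h1).trans h2

/-- the transition matrix between the frames is triangular and bounded -/
lemma exists_tau (κ : G) : ∃ C : ℝ, 1 ≤ C ∧ ∀ z ∈ Fl', ∃ τ : Fin 3 → Fin 3 → ℝ,
    (∀ j, ac κ⁻¹ (fu (lin κ z) j) = ∑ i, τ i j • fu z i) ∧ (∀ i j, |τ i j| ≤ C) ∧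
    (∀ i j, j < i → τ i j = 0) ∧ ∀ j, 1 ≤ C * |τ j j| := by
  refine ⟨1 + 9 * nm κ + 9 * nm κ⁻¹, by linarith [nm_pos κ, nm_pos κ⁻¹], fun z hz => ?_⟩
  have hz' := lin_mem hz κ
  have h3 : ∀ i j, j < i → ac κ⁻¹ (fu (lin κ z) j) ⬝ᵥ fu z i / (fu z i ⬝ᵥ fu z i) = 0 := by
    intro i j h
    have := tri hz' κ⁻¹ h
    rw [← lin_mul, inv_mul_cancel, lin_one] at this
    rw [this, zero_div]
  refine ⟨fun i j => ac κ⁻¹ (fu (lin κ z) j) ⬝ᵥ fu z i / (fu z i ⬝ᵥ fu z i), fun j => expand hz _,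
    fun i j => ?_, h3, fun j => ?_⟩
  · have h1 := norm_ac_le κ⁻¹ (fu (lin κ z) j)
    rw [norm_fu hz'] at h1
    linarith [abs_coef_le hz (ac κ⁻¹ (fu (lin κ z) j)) i, nm_pos κ]
  · have h1 := congrArg (fun v => ac κ v ⬝ᵥ fu (lin κ z) j) (expand hz (ac κ⁻¹ (fu (lin κ z) j)))
    simp only [ac_ac_inv, Fin.sum_univ_three, ac_add, ac_smul, add_dotProduct, smul_dotProduct,
      smul_eq_mul] at h1
    rw [← Fin.sum_univ_three fun i => ac κ⁻¹ (fu (lin κ z) j) ⬝ᵥ fu z i / (fu z i ⬝ᵥ fu z i)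
      * (ac κ (fu z i) ⬝ᵥ fu (lin κ z) j), Finset.sum_eq_single j] at h1
    · have h2 := one_le_dot hz' j
      have h4 := abs_dot_le (ac κ (fu z j)) (fu (lin κ z) j)
      have h5 := norm_ac_le κ (fu z j)
      rw [norm_fu hz] at h5
      rw [norm_fu hz'] at h4
      rw [h1] at h2
      refine h2.trans ((le_abs_self _).trans ?_)
      rw [abs_mul, mul_comm]
      exact mul_le_mul_of_nonneg_right (by linarith [nm_pos κ⁻¹]) (abs_nonneg _)
    · intro i _ hi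
      rcases lt_or_gt_of_ne hi with h | h
      · rw [tri hz κ h, mul_zero]
      · rw [h3 i j h, zero_mul]
    · simp

/-- the size of `g` seen from the point of the chamber `j` of the flag `z` -/
noncomputable def NN (η : ℝ) (g : G) (z : V × V) (j : Fin 3 → ℤ) : ℝ :=
  ∑ i, Real.exp (η * j i) * ‖ac g (fu z i)‖

lemma nm_le_NN {η c : ℝ} {z : V × V} (hz : z ∈ Fl') {j : Fin 3 → ℤ} (hc0 : 0 ≤ c)
    (hc : ∀ i, c ≤ Real.exp (η * j i)) (g : G) : c * nm g ≤ 3 * NN η g z j := by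
  have h1 : nm g ≤ 3 * ∑ i, ‖ac g (fu z i)‖ := by
    refine nm_le_of_forall fun a => ?_
    conv_lhs => rw [expand hz a]
    simp only [Fin.sum_univ_three, ac_add, ac_smul]
    have h := fun i => mul_le_mul_of_nonneg_right (abs_coef_le hz a i) (norm_nonneg (ac g (fu z i)))
    refine (norm_add₃_le).trans ?_
    simp only [norm_smul, Real.norm_eq_abs]
    linarith [h 0, h 1, h 2]
  have h2 : c * ∑ i, ‖ac g (fu z i)‖ ≤ NN η g z j := by
    rw [Finset.mul_sum]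
    exact Finset.sum_le_sum fun i _ => mul_le_mul_of_nonneg_right (hc i) (norm_nonneg _)
  nlinarith [mul_le_mul_of_nonneg_left h1 hc0]

lemma exists_nm_le_NN (η : ℝ) {z : V × V} (hz : z ∈ Fl') (j : Fin 3 → ℤ) :
    ∃ c > 0, ∀ g, c * nm g ≤ NN η g z j := by
  refine ⟨Real.exp (-∑ i, |η * j i|) / 3, by positivity, fun g => ?_⟩
  have := nm_le_NN (η := η) hz (j := j) (Real.exp_pos (-∑ i, |η * j i|)).le (fun i =>
    Real.exp_le_exp.2 ((neg_le_neg (Finset.single_le_sum (f := fun i => |η * j i|)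
      (fun _ _ => abs_nonneg _) (Finset.mem_univ i))).trans (neg_abs_le _))) g
  linarith

lemma NN_pos (η : ℝ) (g : G) {z : V × V} (hz : z ∈ Fl') (j : Fin 3 → ℤ) : 0 < NN η g z j := by
  obtain ⟨c, hc, h⟩ := exists_nm_le_NN η hz j
  exact (mul_pos hc (nm_pos g)).trans_le (h g)

lemma NN_nonneg (η : ℝ) (g : G) (z : V × V) (j : Fin 3 → ℤ) : 0 ≤ NN η g z j :=
  Finset.sum_nonneg fun _ _ => by positivity

lemma real_cmp {C δ θ x₀ x₁ x₂ y₀ y₁ y₂ t₀ t₁ t₂ e₀ e₁ e₂ s₀ s₁ s₂ : ℝ} (hC : 1 ≤ C) (hδ : 0 ≤ δ)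
    (hδ' : 4 * C ^ 2 * δ ≤ 1) (hθ : 1 ≤ θ) (hx₀ : 0 ≤ x₀) (hx₁ : 0 ≤ x₁) (hx₂ : 0 ≤ x₂)
    (he₀ : 0 ≤ e₀) (he₁ : 0 ≤ e₁) (he₂ : 0 ≤ e₂) (h₀ : y₀ = t₀ * x₀) (h₁ : |y₁ - t₁ * x₁| ≤ C * x₀)
    (h₂ : |y₂ - t₂ * x₂| ≤ C * x₀ + C * x₁) (g₁ : e₁ ≤ δ * e₀) (g₂ : e₂ ≤ δ * e₀) (g₃ : e₂ ≤ δ * e₁)
    (l₀ : 1 ≤ C * t₀) (l₁ : 1 ≤ C * t₁) (ht₂ : 0 ≤ t₂) (a₀ : s₀ ≤ t₀) (a₁ : s₁ ≤ t₁) (a₂ : s₂ ≤ t₂)
    (b₀ : t₀ ≤ θ * s₀) (b₁ : t₁ ≤ θ * s₁) (b₂ : t₂ ≤ θ * s₂) :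
    e₀ * y₀ + e₁ * y₁ + e₂ * y₂
        ≤ θ * (1 + 4 * C ^ 2 * δ) * (e₀ * s₀ * x₀ + e₁ * s₁ * x₁ + e₂ * s₂ * x₂) ∧
      e₀ * s₀ * x₀ + e₁ * s₁ * x₁ + e₂ * s₂ * x₂
        ≤ θ * (1 + 4 * C ^ 2 * δ) * (e₀ * y₀ + e₁ * y₁ + e₂ * y₂) := by
  have hC0 : 0 ≤ C := by linarith
  have ht₀ : 0 ≤ t₀ := by nlinarith
  have ht₁ : 0 ≤ t₁ := by nlinarith
  set u₀ := e₀ * x₀
  set u₁ := e₁ * x₁
  set u₂ := e₂ * x₂
  have hu₀ : 0 ≤ u₀ := mul_nonneg he₀ hx₀
  have hu₁ : 0 ≤ u₁ := mul_nonneg he₁ hx₁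
  have hu₂ : 0 ≤ u₂ := mul_nonneg he₂ hx₂
  set S := t₀ * u₀ + t₁ * u₁ + t₂ * u₂ with hS
  set N := e₀ * s₀ * x₀ + e₁ * s₁ * x₁ + e₂ * s₂ * x₂ with hN
  set Y := e₀ * y₀ + e₁ * y₁ + e₂ * y₂ with hY
  have hN' : N = s₀ * u₀ + s₁ * u₁ + s₂ * u₂ := by simp only [hN, u₀, u₁, u₂]; ring
  have n1 : N ≤ S := by
    rw [hN']
    exact add_le_add_three (by gcongr) (by gcongr) (by gcongr)
  have n2 : S ≤ θ * N := by
    rw [hN']
    linarith [mul_le_mul_of_nonneg_right b₀ hu₀, mul_le_mul_of_nonneg_right b₁ hu₁,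
      mul_le_mul_of_nonneg_right b₂ hu₂]
  have hS0 : 0 ≤ S := by positivity
  have n3 : |Y - S| ≤ 2 * C ^ 2 * δ * S := by
    have e : Y - S = e₁ * (y₁ - t₁ * x₁) + e₂ * (y₂ - t₂ * x₂) := by
      simp only [hY, hS, h₀, u₀, u₁, u₂]; ring
    have p1 : |e₁ * (y₁ - t₁ * x₁)| ≤ δ * e₀ * (C * x₀) := by
      rw [abs_mul, abs_of_nonneg he₁]
      gcongr
    have p2 : |e₂ * (y₂ - t₂ * x₂)| ≤ δ * e₀ * (C * x₀) + δ * e₁ * (C * x₁) := by
      rw [abs_mul, abs_of_nonneg he₂]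
      refine (mul_le_mul_of_nonneg_left h₂ he₂).trans ?_
      rw [mul_add]
      gcongr
    have p3 : u₀ ≤ C * t₀ * u₀ := le_mul_of_one_le_left hu₀ l₀
    have p4 : u₁ ≤ C * t₁ * u₁ := le_mul_of_one_le_left hu₁ l₁
    have p5 : 2 * u₀ + u₁ ≤ 2 * C * S := by
      have : 0 ≤ C * (t₂ * u₂) := by positivity
      have : 0 ≤ C * t₁ * u₁ := by positivity
      simp only [hS]
      linarith
    calc |Y - S| ≤ δ * C * (2 * u₀ + u₁) := by
          rw [e]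
          refine (abs_add_le _ _).trans ((add_le_add p1 p2).trans_eq ?_)
          simp only [u₀, u₁]; ring
      _ ≤ δ * C * (2 * C * S) := by gcongr
      _ = _ := by ring
  obtain ⟨n4, n5⟩ := abs_le.1 n3
  set w := C ^ 2 * δ with hw
  have hw0 : 0 ≤ w := by positivity
  have hw1 : 4 * w ≤ 1 := by rw [hw]; linarith
  have e1 : 4 * C ^ 2 * δ = 4 * w := by rw [hw]; ring
  have e2 : 2 * C ^ 2 * δ = 2 * w := by rw [hw]; ring
  rw [e2] at n4 n5
  rw [e1]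
  clear_value w S N Y
  constructor
  · calc Y ≤ (1 + 4 * w) * S := by nlinarith [mul_nonneg hw0 hS0]
      _ ≤ (1 + 4 * w) * (θ * N) := by gcongr
      _ = _ := by ring
  · have m1 : (1 - 2 * w) * S ≤ Y := by linarith
    have m2 : S ≤ (1 + 4 * w) * Y := by
      calc S ≤ (1 + 4 * w) * ((1 - 2 * w) * S) := by
            nlinarith [mul_nonneg (mul_nonneg hw0 hS0) (sub_nonneg.2 hw1), mul_nonneg hw0 hS0]
        _ ≤ _ := by gcongr
    calc N ≤ 1 * ((1 + 4 * w) * Y) := by linarith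
      _ ≤ θ * ((1 + 4 * w) * Y) := by gcongr; linarith
      _ = _ := by ring

/-- the corner of the cube, deep in the chamber -/
def oo (n : ℕ) : Fin 3 → ℤ := ![4 * n, 2 * n, 0]

/-- comparison of sizes -/
lemma NN_cmp (κ : G) : ∃ C : ℝ, 1 ≤ C ∧ ∀ (η : ℝ) (n : ℕ), 0 < η →
    4 * C ^ 2 * Real.exp (-(η * n)) ≤ 1 → ∀ z ∈ Fl', ∃ σ : Fin 3 → ℤ,
      (∀ i, (|σ i| : ℝ) ≤ Real.log C / η + 1) ∧ ∀ j ∈ cube (oo n) n, ∀ g : G,
        NN η (g * κ⁻¹) (lin κ z) j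
          ≤ Real.exp η * (1 + 4 * C ^ 2 * Real.exp (-(η * n))) * NN η g z (j + σ) ∧
        NN η g z (j + σ)
          ≤ Real.exp η * (1 + 4 * C ^ 2 * Real.exp (-(η * n))) * NN η (g * κ⁻¹) (lin κ z) j := by
  obtain ⟨C, hC, h⟩ := exists_tau κ
  refine ⟨C, hC, fun η n hη hδ z hz => ?_⟩
  obtain ⟨τ, h1, h2, h3, h4⟩ := h z hz
  have hp : ∀ i, 0 < |τ i i| := fun i => by nlinarith [h4 i, abs_nonneg (τ i i)]
  let σ : Fin 3 → ℤ := fun i => ⌊Real.log |τ i i| / η⌋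
  have a : ∀ i, Real.exp (η * σ i) ≤ |τ i i| := fun i => by
    rw [← Real.le_log_iff_exp_le (hp i), ← le_div_iff₀' hη]
    exact Int.floor_le _
  have b : ∀ i, |τ i i| ≤ Real.exp η * Real.exp (η * σ i) := fun i => by
    rw [← Real.exp_add, ← Real.log_le_iff_le_exp (hp i), ← mul_one_add, ← div_le_iff₀' hη, add_comm]
    exact (Int.lt_floor_add_one _).le
  refine ⟨σ, fun i => ?_, fun j hj g => ?_⟩
  · have c1 : Real.log |τ i i| ≤ Real.log C := Real.log_le_log (hp i) (h2 i i)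
    have c2 : -Real.log C ≤ Real.log |τ i i| := by
      have := Real.log_nonneg (h4 i)
      rw [Real.log_mul (by linarith) (hp i).ne'] at this
      linarith
    have c3 := div_le_div_of_nonneg_right c1 hη.le
    have c4 := div_le_div_of_nonneg_right c2 hη.le
    rw [neg_div] at c4
    have c5 := Int.floor_le (Real.log |τ i i| / η)
    have c6 := Int.lt_floor_add_one (Real.log |τ i i| / η)
    rw [abs_le]
    constructor <;> simp only [σ] <;> linarith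
  · have gap : ∀ i k : Fin 3, j k + n ≤ j i →
        Real.exp (η * j k) ≤ Real.exp (-(η * n)) * Real.exp (η * j i) := fun i k hik => by
      rw [← Real.exp_add, Real.exp_le_exp]
      have : (j k : ℝ) + n ≤ j i := by exact_mod_cast hik
      nlinarith
    have m0 := mem_cube.1 hj 0
    have m1 := mem_cube.1 hj 1
    have m2 := mem_cube.1 hj 2
    simp only [oo, Matrix.cons_val_zero, Matrix.cons_val_one, Matrix.cons_val] at m0 m1 m2
    have y : ∀ k, ac (g * κ⁻¹) (fu (lin κ z) k)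
        = τ 0 k • ac g (fu z 0) + τ 1 k • ac g (fu z 1) + τ 2 k • ac g (fu z 2) := fun k => by
      rw [ac_mul, h1, Fin.sum_univ_three, ac_add, ac_add, ac_smul, ac_smul, ac_smul]
    have ns : ∀ i k, ‖τ i k • ac g (fu z i)‖ = |τ i k| * ‖ac g (fu z i)‖ := fun i k =>
      norm_smul _ _
    have nl : ∀ i k, ‖τ i k • ac g (fu z i)‖ ≤ C * ‖ac g (fu z i)‖ := fun i k =>
      (ns i k).trans_le (mul_le_mul_of_nonneg_right (h2 i k) (norm_nonneg _))
    simp only [NN, Fin.sum_univ_three, Pi.add_apply, Int.cast_add, mul_add η, Real.exp_add]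
    refine real_cmp hC (Real.exp_pos _).le hδ (Real.one_le_exp hη.le) (norm_nonneg _)
      (norm_nonneg _) (norm_nonneg _) (Real.exp_pos _).le (Real.exp_pos _).le (Real.exp_pos _).le
      ?_ ?_ ?_ (gap 0 1 (by omega)) (gap 0 2 (by omega)) (gap 1 2 (by omega)) (h4 0) (h4 1)
      (abs_nonneg _) (a 0) (a 1) (a 2) (b 0) (b 1) (b 2)
    · rw [y, h3 1 0 (by decide), h3 2 0 (by decide), zero_smul, zero_smul, add_zero, add_zero, ns]
    · rw [y, h3 2 1 (by decide), zero_smul, add_zero, ← ns]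
      refine (abs_norm_sub_norm_le _ _).trans ?_
      rw [add_sub_cancel_right]
      exact nl 0 1
    · rw [y, ← ns]
      refine (abs_norm_sub_norm_le _ _).trans ?_
      rw [add_sub_cancel_right]
      exact (norm_add_le _ _).trans (add_le_add (nl 0 2) (nl 1 2))

/-- the weights -/
noncomputable def WW (m : ℕ) (η : ℝ) (z : V × V) (j : Fin 3 → ℤ) (μ : Γ) : ℝ :=
  (NN η (ι μ) z j)⁻¹ ^ m

lemma WW_nonneg (m : ℕ) (η : ℝ) (z : V × V) (j : Fin 3 → ℤ) (μ : Γ) : 0 ≤ WW m η z j μ :=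
  pow_nonneg (inv_nonneg.2 (NN_nonneg _ _ _ _)) _

lemma inv_pow_le {a b c : ℝ} (ha : 0 < a) (hb : 0 < b) (h : a ≤ c * b) (m : ℕ) :
    b⁻¹ ^ m ≤ c ^ m * a⁻¹ ^ m := by
  rw [← mul_pow]
  refine pow_le_pow_left₀ (inv_pos.2 hb).le ?_ m
  rw [← div_eq_mul_inv, inv_eq_one_div, div_le_div_iff₀ hb ha]
  linarith

variable {m : ℕ} (hm : Summable fun μ : Γ => (nm (ι μ))⁻¹ ^ m)
include hm

lemma summable_WW (η : ℝ) {z : V × V} (hz : z ∈ Fl') (j : Fin 3 → ℤ) : Summable (WW m η z j) := by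
  obtain ⟨c, hc, h⟩ := exists_nm_le_NN η hz j
  refine (hm.mul_left (c⁻¹ ^ m)).of_nonneg_of_le (WW_nonneg _ _ _ _) fun μ =>
    inv_pow_le (nm_pos _) (NN_pos _ _ hz _) ?_ m
  rw [← div_eq_inv_mul, le_div_iff₀' hc]
  exact h _

lemma tsum_WW_pos (η : ℝ) {z : V × V} (hz : z ∈ Fl') (j : Fin 3 → ℤ) : 0 < ∑' μ, WW m η z j μ :=
  (summable_WW hm η hz j).tsum_pos (WW_nonneg _ _ _ _) 1
    (pow_pos (inv_pos.2 (NN_pos _ _ hz _)) _)

omit hm in
/-- the averaged probability vectors -/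
noncomputable def qv (m : ℕ) (η : ℝ) (n : ℕ) (μ : Γ) (z : V × V) : ℝ :=
  (∑ j ∈ cube (oo n) n, pr (WW m η z j) μ) / n ^ 3

lemma exists_AmD {η : ℝ} (hη : 0 ≤ η) {n : ℕ} (hn : 0 < n) {ε : ℝ} (hε : 0 < ε) (hε' : ε ≤ 1 / 4) :
    ∃ D : AmD, ∀ κ : Γ, ∀ z ∈ Fl, ∀ S : Finset Γ,
      ∑ μ ∈ S, |D.c (μ * κ⁻¹) (D.p (act μ z)) - D.c μ (D.p (act μ z))|
        ≤ ∑ μ ∈ S, |qv m η n (μ * κ⁻¹) (lin (ι κ) z) - qv m η n μ z| + 4 * ε := by
  have hn' : (0 : ℝ) < n ^ 3 := by positivity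
  have avg : ∀ (f : (Fin 3 → ℤ) → ℝ) (B : ℝ), (∀ j ∈ cube (oo n) n, f j ≤ B) →
      (∑ j ∈ cube (oo n) n, f j) / n ^ 3 ≤ B := fun f B h => by
    rw [div_le_iff₀' hn']
    refine (Finset.sum_le_sum h).trans_eq ?_
    rw [Finset.sum_const, card_cube, nsmul_eq_mul, Nat.cast_pow]
  refine round (qv m η n) (fun μ => ?_) (fun μ s t a b hs ht => ?_) (fun μ z => ?_) (fun μ z => ?_)
    (fun z hz => ?_) (hm.mul_left ((27 * Real.exp (η * (5 * n))) ^ m)) (fun z hz μ => ?_) hε hε'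
  · have h1 : ∀ i, Measurable fun z => fu z i := fun i => by
      refine measurable_nrm.comp ?_
      fin_cases i
      · exact measurable_fst
      · refine Continuous.measurable (continuous_pi fun k => ?_)
        fin_cases k <;> simp [fr, cross_apply] <;> fun_prop
      · exact measurable_snd
    have h2 : ∀ j ν, Measurable fun z => WW m η z j ν := fun j ν =>
      (Finset.measurable_sum _ fun i _ =>
        ((measurable_ac _).comp (h1 i)).norm.const_mul _).inv.pow_const _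
    exact (Finset.measurable_sum _ fun j _ => (h2 j μ).div (Measurable.tsum (h2 j))).div_const _
  · have h1 : ∀ (g : G) (s : ℝ) (v : V), s ≠ 0 → ‖ac g (nrm (s • v))‖ = ‖ac g (nrm v)‖ := by
      intro g s v hs
      rcases hs.lt_or_gt with h | h
      · rw [← neg_neg s, neg_smul, nrm_neg, ac_neg, norm_neg, nrm_smul (neg_pos.2 h)]
      · rw [nrm_smul h]
    have h2 : ∀ g i, ‖ac g (fu (s • a, t • b) i)‖ = ‖ac g (fu (a, b) i)‖ := fun g i => by
      fin_cases i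
      · exact h1 g s a hs
      · refine Eq.trans ?_ (h1 g (t * s) (b ⨯₃ a) (mul_ne_zero ht hs))
        simp [fu, fr, smul_smul, mul_comm]
      · exact h1 g t b ht
    unfold qv WW NN
    simp only [h2]
  · exact div_nonneg (Finset.sum_nonneg fun j _ => pr_nonneg (WW_nonneg _ _ _ _) μ) hn'.le
  · exact avg _ _ fun j _ => by simpa using sum_pr_le (WW_nonneg m η z j) {μ}
  · have := (hasSum_sum fun j (_ : j ∈ cube (oo n) n) =>
      hasSum_pr (summable_WW hm η hz j) (tsum_WW_pos hm η hz j)).div_const ((n : ℝ) ^ 3)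
    rwa [Finset.sum_const, card_cube, nsmul_eq_mul, mul_one, Nat.cast_pow, div_self hn'.ne'] at this
  · refine avg _ _ fun j hj => ?_
    have hj' : ∀ i, 0 ≤ j i ∧ j i ≤ 5 * n := fun i => by
      have := mem_cube.1 hj i
      fin_cases i <;> simp [oo] at this ⊢ <;> omega
    have a1 : nm (ι μ) ≤ 3 * NN η (ι μ) z j := by
      simpa using nm_le_NN (η := η) hz zero_le_one
        (fun i => Real.one_le_exp (mul_nonneg hη (by exact_mod_cast (hj' i).1))) (ι μ)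
    have a2 : NN η (ι 1) z j ≤ 9 * Real.exp (η * (5 * n)) * 1 := by
      have : ∀ i, Real.exp (η * j i) * ‖ac (ι 1) (fu z i)‖ ≤ Real.exp (η * (5 * n)) := fun i => by
        rw [map_one, ac_one, norm_fu hz, mul_one, Real.exp_le_exp]
        exact mul_le_mul_of_nonneg_left (by exact_mod_cast (hj' i).2) hη
      rw [NN, Fin.sum_univ_three]
      linarith [this 0, this 1, this 2, Real.exp_pos (η * (5 * n))]
    have a3 := inv_pow_le (nm_pos _) (NN_pos _ _ hz _) a1 m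
    have a4 := inv_pow_le (NN_pos _ _ hz _) one_pos a2 m
    rw [inv_one, one_pow] at a4
    have a5 : WW m η z j 1 ≤ ∑' ν, WW m η z j ν :=
      (summable_WW hm η hz j).le_tsum 1 fun _ _ => WW_nonneg _ _ _ _ _
    rw [pr, div_le_iff₀ (tsum_WW_pos hm η hz j)]
    have a6 : 0 ≤ (nm (ι μ))⁻¹ ^ m := pow_nonneg (inv_pos.2 (nm_pos _)).le _
    calc WW m η z j μ ≤ 3 ^ m * (nm (ι μ))⁻¹ ^ m * 1 := by rw [mul_one]; exact a3
      _ ≤ 3 ^ m * (nm (ι μ))⁻¹ ^ m * ((9 * Real.exp (η * (5 * n))) ^ m * ∑' ν, WW m η z j ν) := by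
        gcongr
        exact a4.trans (mul_le_mul_of_nonneg_left a5 (by positivity))
      _ = _ := by
        rw [show (27 : ℝ) * Real.exp (η * (5 * n)) = 3 * (9 * Real.exp (η * (5 * n))) by ring,
          mul_pow (3 : ℝ)]
        ring

lemma qv_close (κ : Γ) : ∃ C : ℝ, 1 ≤ C ∧ ∀ (η : ℝ) (n D : ℕ), 0 < η → 0 < n →
    4 * C ^ 2 * Real.exp (-(η * n)) ≤ 1 → Real.log C / η + 1 ≤ D → 2 * D ≤ n →
    ∀ z ∈ Fl', ∀ S : Finset Γ, ∑ μ ∈ S, |qv m η n (μ * κ⁻¹) (lin (ι κ) z) - qv m η n μ z|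
      ≤ 2 * (((Real.exp η * (1 + 4 * C ^ 2 * Real.exp (-(η * n)))) ^ m) ^ 2 - 1) + 12 * D / n := by
  obtain ⟨C, hC, h⟩ := NN_cmp (ι κ)
  refine ⟨C, hC, fun η n D hη hn hδ hD hDn z hz S => ?_⟩
  obtain ⟨σ, hσ, h⟩ := h η n hη hδ z hz
  have hz' := lin_mem hz (ι κ)
  have hn' : (0 : ℝ) < n := by exact_mod_cast hn
  have key := cube_close (f := fun j => pr (WW m η z j))
    (f' := fun j μ => pr (WW m η (lin (ι κ) z) j) (μ * κ⁻¹))
    (fun j μ => pr_nonneg (WW_nonneg _ _ _ _) μ) (S := S) (fun j => sum_pr_le (WW_nonneg _ _ _ _) S)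
    (oo n) σ hDn (fun i => by exact_mod_cast (hσ i).trans hD)
    (ε := 2 * (((Real.exp η * (1 + 4 * C ^ 2 * Real.exp (-(η * n)))) ^ m) ^ 2 - 1)) fun j hj => by
      have e : ∀ μ, pr (WW m η (lin (ι κ) z) j) (μ * κ⁻¹)
          = pr (fun ν => WW m η (lin (ι κ) z) j (ν * κ⁻¹)) μ := fun μ => by
        rw [pr, pr, ← (Equiv.mulRight κ⁻¹).tsum_eq]
        rfl
      simp only [e]
      have s1 : Summable fun ν => WW m η (lin (ι κ) z) j (ν * κ⁻¹) :=
        (Equiv.mulRight κ⁻¹).summable_iff.2 (summable_WW hm η hz' j)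
      have s2 : 0 < ∑' ν, WW m η (lin (ι κ) z) j (ν * κ⁻¹) :=
        (tsum_WW_pos hm η hz' j).trans_eq ((Equiv.mulRight κ⁻¹).tsum_eq _).symm
      refine pr_close (WW_nonneg _ _ _ _) (fun _ => WW_nonneg _ _ _ _ _) (summable_WW hm η hz _)
        s1 (tsum_WW_pos hm η hz _) s2
        (one_le_pow₀ (one_le_mul_of_one_le_of_one_le (Real.one_le_exp hη.le)
          (le_add_of_nonneg_right (by positivity)))) (fun μ => ?_) (fun μ => ?_) S
      · simp only [WW, map_mul, map_inv]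
        exact inv_pow_le (NN_pos _ _ hz _) (NN_pos _ _ hz' _) (h j hj (ι μ)).2 m
      · simp only [WW, map_mul, map_inv]
        exact inv_pow_le (NN_pos _ _ hz' _) (NN_pos _ _ hz _) (h j hj (ι μ)).1 m
  simp only [qv, ← sub_div, abs_div, abs_of_pos (pow_pos hn' 3), ← Finset.sum_div]
  rw [div_le_iff₀' (pow_pos hn' 3)]
  refine key.trans_eq ?_
  field_simp

omit hm in
theorem am : AmStmt := by
  obtain ⟨m, hm⟩ := exists_summable
  choose D hD using fun k : ℕ => exists_AmD hm (η := 1 / ((k : ℝ) + 1)) (by positivity)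
    (n := (k + 1) ^ 2) (by positivity) (ε := 1 / ((k : ℝ) + 1) / 4) (by positivity)
    (div_le_div_of_nonneg_right (by rw [div_le_one (by positivity)]; simp) (by norm_num))
  refine ⟨D, fun κ ε hε => ?_⟩
  obtain ⟨C, hC, h⟩ := qv_close hm κ
  obtain ⟨A, hA⟩ := exists_nat_ge (Real.log C + 1)
  have t1 : Tendsto (fun k : ℕ => 1 / ((k : ℝ) + 1)) atTop (𝓝 0) :=
    tendsto_one_div_add_atTop_nhds_zero_nat
  have t2 : Tendsto (fun k : ℕ => Real.exp (-((k : ℝ) + 1))) atTop (𝓝 0) :=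
    Real.tendsto_exp_neg_atTop_nhds_zero.comp
      (tendsto_atTop_add_const_right _ 1 tendsto_natCast_atTop_atTop)
  have t3 : Tendsto (fun k : ℕ => 4 * C ^ 2 * Real.exp (-((k : ℝ) + 1))) atTop (𝓝 0) := by
    simpa using t2.const_mul (4 * C ^ 2)
  have t4 : Tendsto (fun k : ℕ => 2 * (((Real.exp (1 / ((k : ℝ) + 1))
      * (1 + 4 * C ^ 2 * Real.exp (-((k : ℝ) + 1)))) ^ m) ^ 2 - 1) + 12 * A * (1 / ((k : ℝ) + 1))
      + 1 / ((k : ℝ) + 1)) atTop (𝓝 0) := by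
    have := ((((((((Real.continuous_exp.tendsto 0).comp t1).mul (t3.const_add 1)).pow m).pow
      2).sub_const 1).const_mul 2).add (t1.const_mul (12 * (A : ℝ)))).add t1
    simpa using this
  filter_upwards [t3.eventually_le_const one_pos, t4.eventually_le_const hε,
    eventually_ge_atTop (2 * A)] with k h3 h4 hk z hz S
  have hk0 : (0 : ℝ) < k + 1 := by positivity
  have e : 1 / ((k : ℝ) + 1) * ((k + 1) ^ 2 : ℕ) = k + 1 := by
    push_cast
    field_simp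
  have a := h (1 / ((k : ℝ) + 1)) ((k + 1) ^ 2) (A * (k + 1)) (by positivity) (by positivity)
    (by rwa [e]) (by
      rw [div_div_eq_mul_div, div_one]
      push_cast
      nlinarith [Real.log_nonneg hC, (Nat.cast_nonneg k : (0 : ℝ) ≤ k)])
    (by nlinarith) z (Fl_sub hz) S
  rw [e] at a
  have e2 : 12 * ((A * (k + 1) : ℕ) : ℝ) / ((k + 1) ^ 2 : ℕ) = 12 * A * (1 / ((k : ℝ) + 1)) := by
    push_cast
    field_simp
  rw [e2] at a
  linarith [hD k κ z hz S]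

end AmenAux

theorem amen : AmenStmt := AmenAux.amen_of AmenAux.am

end Crest.Agent.N111
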