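import Crest.Agent.N111.I.Rel
import Crest.Agent.N111.Lib.POVM2
import Crest.Agent.N111.Lib.Geo2

/-!
# Row 111: uniqueness of the boundary PVM (`UniqStmt`) (helper60)
-/

set_option autoImplicit false
set_option linter.unusedSectionVars false

namespace Crest.Agent.N111

open MeasureTheory Topology Filter Matrix
open scoped InnerProductSpace

namespace UniqAux

variable {K : Type} [NormedAddCommGroup K] [InnerProductSpace ℂ K] [CompleteSpace K]

lemma rows_apply {T : Γ → K →L[ℂ] K} {C : ℝ} (hC : 0 ≤ C) (h : RowBd T C) (η : K) (μ : Γ) :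
    rows T η μ = T μ η := by
  have hm : ∀ η, Memℓp (fun μ => T μ η) 2 := fun η => memℓp_gen' (C := C ^ 2 * ‖η‖ ^ 2) fun F => by
    simpa using h η F
  have hex : ∃ S : K →L[ℂ] LG K, ∀ η μ, S η μ = T μ η := by
    refine ⟨LinearMap.mkContinuous
      { toFun := fun η => ⟨fun μ => T μ η, hm η⟩
        map_add' := fun a b => lp.ext (funext fun μ => map_add (T μ) a b)
        map_smul' := fun c a => lp.ext (funext fun μ => map_smul (T μ) c a) } C fun η => ?_,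
      fun _ _ => rfl⟩
    refine lp.norm_le_of_forall_sum_le (by norm_num) (by positivity) fun F => ?_
    simpa [mul_pow] using h η F
  rw [rows, dif_pos hex]
  exact hex.choose_spec η μ

lemma norm_eq_of {x y : LG K} (h : ∀ μ, ‖x μ‖ = ‖y μ‖) : ‖x‖ = ‖y‖ := by
  rw [lp.norm_eq_tsum_rpow (by norm_num), lp.norm_eq_tsum_rpow (by norm_num)]
  simp only [h]

variable (I : Ind K)

lemma mJ_apply {F : Γ → ℂ} {C : ℝ} (hF : ∀ μ, ‖F μ‖ ≤ C) (η : K) (μ : Γ) :
    I.mJ F η μ = F μ • I.j (I.ρ μ⁻¹ η) := by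
  have hC : 0 ≤ C := (norm_nonneg _).trans (hF 1)
  refine rows_apply hC (fun η S => ?_) η μ
  calc ∑ μ ∈ S, ‖(F μ • (I.j * I.ρ μ⁻¹)) η‖ ^ 2 ≤ ∑ μ ∈ S, C ^ 2 * ‖I.j (I.ρ μ⁻¹ η)‖ ^ 2 := by
        refine Finset.sum_le_sum fun μ _ => ?_
        change ‖F μ • I.j (I.ρ μ⁻¹ η)‖ ^ 2 ≤ _
        rw [norm_smul, mul_pow]
        gcongr
        exact hF μ
    _ ≤ C ^ 2 * ‖η‖ ^ 2 := by
        rw [← Finset.mul_sum]
        gcongr
        exact sum_le_hasSum S (fun _ _ => by positivity) (I.pars η)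

lemma J_apply (η : K) (μ : Γ) : I.J η μ = I.j (I.ρ μ⁻¹ η) := by
  refine rows_apply zero_le_one (fun η S => ?_) η μ
  rw [one_pow, one_mul]
  exact sum_le_hasSum S (fun _ _ => by positivity) (I.pars η)

lemma norm_J (η : K) : ‖I.J η‖ = ‖η‖ := by
  have h := lp.hasSum_norm (p := 2) (by norm_num) (I.J η)
  simp only [J_apply, ENNReal.toReal_ofNat, Real.rpow_ofNat] at h
  exact (pow_left_inj₀ (norm_nonneg _) (norm_nonneg _) two_ne_zero).1 (h.unique (I.pars η))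

end UniqAux

open UniqAux RelAux

theorem uniq : UniqStmt := by
  intro K _ _ _ I I₃ s Φ Φ₃ hs hss hU hc hΦ hΦ₃
  have h : UI s := ⟨hs, hss⟩
  have hU3 : ∀ g, I₃.U g = I.U g := fun g => by
    rw [hc.U, MonoidHom.id_apply, (hU g).eq, mul_assoc, hss, mul_one]
  have hsU : ∀ g v, I.U g (s v) = s (I.U g v) := fun g v =>
    congrFun (congrArg DFunLike.coe (hU g).eq.symm) v
  have key : ∀ f, BM f → Hom0 f → ContinuousOn f {0}ᶜ →
      (Φ₃ (ev 0)).E f = s * (Φ (ev 0)).E f * s := by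
    intro f hf h0 hcont
    obtain ⟨C, hC⟩ := hf.2
    ext η
    obtain ⟨η, rfl⟩ := h.surj η
    obtain ⟨ζ, hζ⟩ := h.surj ((Φ₃ (ev 0)).E f (s η))
    have h1 := tendsto_zero_iff_norm_tendsto_zero.1 (hΦ₃.strong f hf h0 hcont (s η))
    have h2 := hΦ.strong f hf h0 hcont η
    have h3 : Tendsto (fun k : ℕ => I.mJ (fun μ => f (pt μ)) (I.U (al k) η)
        - I.J (I.U (al k) ζ)) atTop (𝓝 0) := by
      rw [tendsto_zero_iff_norm_tendsto_zero]
      refine h1.congr fun k => norm_eq_of fun μ => ?_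
      rw [lp.coeFn_sub, lp.coeFn_sub, Pi.sub_apply, Pi.sub_apply, mJ_apply _ (fun μ => hC _),
        mJ_apply _ (fun μ => hC _), J_apply, J_apply, hζ, hU3, hsU, hsU, hc.j, hc.ρ]
      simp only [← h.cj_def, h.cj_apply_s, MonoidHom.id_apply, ← map_smul, ← map_sub, h.norm_map]
    have h4 := tendsto_zero_iff_norm_tendsto_zero.1 (by simpa using h3.sub h2)
    have h5 : ‖(Φ (ev 0)).E f η - ζ‖ = 0 := by
      refine tendsto_const_nhds_iff.1 (h4.congr fun k => ?_)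
      rw [← map_sub, ← map_sub, norm_J, URep.norm_map]
    rw [hζ, ← sub_eq_zero.1 (norm_eq_zero.1 h5), ← h.cj_def, h.cj_apply_s]
  have key2 : ∀ f, BM f → (Φ₃ (ev 0)).E f = s * (Φ (ev 0)).E f * s := fun f hf => by
    rw [hΦ₃.conc _ f hf, hΦ.conc _ f hf]
    exact IsPoly1.ext_hom0 (Φ₃ (ev 0)).isPoly1 ((Φ (ev 0)).isPoly1.mul s s) key _
      (hf.comp (measurable_sg.comp measurable_nrm)) (hom0_sg_nrm f)
  intro x hx f hf
  obtain ⟨g, rfl⟩ := exists_ac_ev hx 0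
  rw [← hΦ₃.covU _ (ev_ne_zero 0) f hf, ← hΦ.covU _ (ev_ne_zero 0) f hf, key2 f hf, hU3, hU3]
  simp only [← mul_assoc, (hU g).eq]
  simp only [mul_assoc, (hU g⁻¹).eq]

end Crest.Agent.N111
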