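import Crest.Agent.N111.I.Rel
import Crest.Agent.N111.Lib.POVM
import Crest.Agent.N111.Lib.MClass
import Crest.Agent.N111.Lib.Geo

/-!
# Row 111: `AmenStmt`, operator part.  An amenability datum on flags turns a covariant POVM into
a positive map `N → Q`; the trace of `Q` then contradicts ping-pong (helper60)
-/

set_option autoImplicit false
set_option linter.unusedSectionVars false

namespace Crest.Agent.N111.AmenAux

open MeasureTheory Topology Filter Matrix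
open scoped InnerProductSpace ComplexOrder

variable {K : Type} [NormedAddCommGroup K] [InnerProductSpace ℂ K] [CompleteSpace K]

/-- the quadratic form -/
noncomputable def qq (η : K) (T : K →L[ℂ] K) : ℝ := (⟪η, T η⟫_ℂ).re

lemma inner_nonneg {T : K →L[ℂ] K} (hT : 0 ≤ T) (η : K) : 0 ≤ ⟪η, T η⟫_ℂ :=
  ((ContinuousLinearMap.nonneg_iff_isPositive T).1 hT).inner_nonneg_right η

lemma nonneg_of_inner {T : K →L[ℂ] K} (h : ∀ η, 0 ≤ ⟪η, T η⟫_ℂ) : 0 ≤ T := by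
  refine (ContinuousLinearMap.nonneg_iff_isPositive T).2
    ((ContinuousLinearMap.isPositive_iff_complex T).2 fun η => ?_)
  obtain ⟨h1, h2⟩ := Complex.le_def.1 (h η)
  have e : ⟪T η, η⟫_ℂ = ((⟪η, T η⟫_ℂ).re : ℂ) := by
    rw [← inner_conj_symm]
    exact Complex.ext (by rw [Complex.conj_re, Complex.ofReal_re])
      (by rw [Complex.conj_im, ← h2, Complex.ofReal_im, Complex.zero_im, neg_zero])
  rw [e]
  exact ⟨rfl, h1⟩

lemma qq_nonneg {T : K →L[ℂ] K} (hT : 0 ≤ T) (η : K) : 0 ≤ qq η T :=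
  (Complex.le_def.1 (inner_nonneg hT η)).1

lemma qq_add (η : K) (S T : K →L[ℂ] K) : qq η (S + T) = qq η S + qq η T := by
  simp [qq]

lemma qq_sub (η : K) (S T : K →L[ℂ] K) : qq η (S - T) = qq η S - qq η T := by
  simp [qq]

lemma qq_smul (η : K) (c : ℝ) (T : K →L[ℂ] K) : qq η ((c : ℂ) • T) = c * qq η T := by
  simp [qq]

lemma qq_sum {α : Type*} (s : Finset α) (η : K) (T : α → K →L[ℂ] K) :
    qq η (∑ a ∈ s, T a) = ∑ a ∈ s, qq η (T a) := by
  simp [qq, _root_.sum_apply]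

lemma qq_mono {S T : K →L[ℂ] K} (h : S ≤ T) (η : K) : qq η S ≤ qq η T := by
  have := qq_nonneg (sub_nonneg.2 h) η
  rw [qq_sub] at this
  linarith

lemma qq_one (η : K) : qq η 1 = ‖η‖ ^ 2 := by
  rw [qq, one_apply_eq_self, inner_self_eq_norm_sq_to_K]
  norm_cast

lemma qq_conj (A T : K →L[ℂ] K) (η : K) : qq η (star A * T * A) = qq (A η) T := by
  rw [qq, qq]
  exact congrArg _ (ContinuousLinearMap.adjoint_inner_right A η (T (A η)))

lemma ext_qq {S T : K →L[ℂ] K} (hS : 0 ≤ S) (hT : 0 ≤ T) (h : ∀ η, qq η S = qq η T) : S = T :=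
  op_ext fun η => Complex.ext (h η)
    ((Complex.le_def.1 (inner_nonneg hS η)).2.symm.trans (Complex.le_def.1 (inner_nonneg hT η)).2)

lemma le_one_of_qq {T : K →L[ℂ] K} (hT : 0 ≤ T) (h : ∀ η, qq η T ≤ ‖η‖ ^ 2) : T ≤ 1 := by
  refine sub_nonneg.1 (nonneg_of_inner fun η => Complex.le_def.2 ⟨?_, ?_⟩)
  · have := qq_sub η 1 T
    rw [qq_one] at this
    change 0 ≤ qq η (1 - T)
    linarith [h η]
  · rw [_root_.sub_apply, inner_sub_right, Complex.sub_im,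
      ← (Complex.le_def.1 (inner_nonneg hT η)).2,
      ← (Complex.le_def.1 (inner_nonneg (T := 1) zero_le_one η)).2, sub_self, Complex.zero_im]

lemma sqrt_commute {A B : K →L[ℂ] K} (h : Commute A B) : Commute (CFC.sqrt A) B :=
  h.cfcₙ_nnreal _

lemma star_sqrt (A : K →L[ℂ] K) : star (CFC.sqrt A) = CFC.sqrt A :=
  (IsSelfAdjoint.of_nonneg (CFC.sqrt_nonneg A)).star_eq

variable (I : Ind K)

lemma sqrt_mem {A : K →L[ℂ] K} (h : A ∈ I.N) : CFC.sqrt A ∈ I.N := fun a ha =>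
  (sqrt_commute (Commute.symm (h a ha))).symm

lemma ρ_mem (μ : Γ) : I.ρ μ ∈ I.N := fun a ha => I.Cρ a ha μ

lemma norm_star_Q {T : K →L[ℂ] K} (hT : T ∈ I.N) (hρ : ∀ μ, Commute T (I.ρ μ)) :
    ‖T I.ξ‖ = ‖star T I.ξ‖ := by
  have h1 := I.pars (T I.ξ)
  have h2 := (Equiv.inv Γ).hasSum_iff.2 (I.pars (star T I.ξ))
  simp only [I.sym T hT hρ] at h1
  simp only [Function.comp_def, Equiv.inv_apply, inv_inv] at h2
  exact (pow_left_inj₀ (norm_nonneg _) (norm_nonneg _) two_ne_zero).1 (h1.unique h2)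

/-- the vector state of `ξ` on `Q` is invariant under `U` -/
lemma qq_U {B : K →L[ℂ] K} (h0 : 0 ≤ B) (hB : B ∈ I.N) (hρ : ∀ μ, Commute B (I.ρ μ)) (g : G) :
    qq (I.U g I.ξ) B = qq I.ξ B := by
  have e : ∀ v, qq v B = ‖CFC.sqrt B v‖ ^ 2 := fun v => by
    rw [← qq_one, ← qq_conj, star_sqrt, mul_one, CFC.sqrt_mul_sqrt_self B h0]
  have hz : ∀ μ, Commute (star (I.y g⁻¹)) (I.ρ μ) := fun μ => by
    have := (I.y_ρ g⁻¹ μ⁻¹).star_star
    rwa [URep.star_apply, inv_inv] at this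
  have h1 := norm_star_Q I (T := CFC.sqrt B * star (I.y g⁻¹))
    (Set.mul_mem_centralizer (sqrt_mem I hB) (Set.star_mem_centralizer' I.star_C (I.y_N _)))
    fun μ => (sqrt_commute (hρ μ)).mul_left (hz μ)
  rw [star_mul, star_star, star_sqrt, mul_apply_eq_comp, mul_apply_eq_comp, I.star_y_ξ, inv_inv,
    ContinuousLinearMap.norm_map_of_mem_unitary (I.y_un _)] at h1
  rw [e, e, h1]

/-- one half of the ping-pong pair has no mass -/
lemma half (Θ : ℕ → (K →L[ℂ] K) →ₗ[ℂ] (K →L[ℂ] K)) (pos : ∀ n T, 0 ≤ T → 0 ≤ Θ n T)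
    (up : ∀ n, Θ n 1 ≤ 1) {E : K →L[ℂ] K} (h0 : 0 ≤ E) (h1 : E ≤ 1) (mem : ∀ n, Θ n E ∈ I.N)
    (inv : ∀ κ η, Tendsto (fun n => qq (I.ρ κ η) (Θ n E) - qq η (Θ n E)) atTop (𝓝 0))
    (g : ℕ → G) (cov : ∀ n r, Θ n (I.U (g r)⁻¹ * E * I.U (g r)) = I.U (g r)⁻¹ * Θ n E * I.U (g r))
    {B : ℝ} (hB : ∀ n : ℕ, ∑ r ∈ Finset.range n, I.U (g r)⁻¹ * E * I.U (g r)
      ≤ (B : ℂ) • (1 : K →L[ℂ] K)) :
    Tendsto (fun n => qq I.ξ (Θ n E)) (Filter.hyperfilter ℕ) (𝓝 0) := by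
  have mono : ∀ n S T, S ≤ T → Θ n S ≤ Θ n T := fun n S T h =>
    sub_nonneg.1 (by rw [← map_sub]; exact pos n _ (sub_nonneg.2 h))
  have hn : ∀ n, ‖Θ n E‖ ≤ 1 := fun n =>
    (CStarAlgebra.norm_le_one_iff_of_nonneg _ (pos n E h0)).2 ((mono n _ _ h1).trans (up n))
  obtain ⟨L, -, hL⟩ := exists_wtends (Filter.hyperfilter ℕ) (Eventually.of_forall hn)
  have hq : ∀ η, Tendsto (fun n => qq η (Θ n E)) (Filter.hyperfilter ℕ) (𝓝 (qq η L)) := fun η =>
    (Complex.continuous_re.tendsto _).comp (hL η η)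
  have hL0 : 0 ≤ L := nonneg_of_inner fun η =>
    ge_of_tendsto' (hL η η) fun n => inner_nonneg (pos n E h0) η
  have hLN : L ∈ I.N := fun a ha => by
    refine (hL.mul_left a).unique ?_
    have e : (fun n => a * Θ n E) = fun n => Θ n E * a := funext fun n => mem n a ha
    rw [e]
    exact hL.mul_right a
  have hLρ : ∀ κ, Commute L (I.ρ κ) := fun κ => by
    have e : star (I.ρ κ) * L * I.ρ κ = L := by
      refine ext_qq (star_left_conjugate_nonneg hL0 _) hL0 fun η => ?_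
      rw [qq_conj]
      refine sub_eq_zero.1 (tendsto_nhds_unique ((hq _).sub (hq η)) ((inv κ η).mono_left ?_))
      rw [← Nat.cofinite_eq_atTop]
      exact Filter.hyperfilter_le_cofinite
    rw [URep.star_apply] at e
    conv_rhs => rw [← one_mul (I.ρ κ)]
    change L * I.ρ κ = I.ρ κ * L
    conv_rhs => rw [← e]
    rw [← mul_assoc, ← mul_assoc, URep.mul_inv_self, one_mul]
  have hN : ∀ N : ℕ, N * qq I.ξ L ≤ |B| * ‖I.ξ‖ ^ 2 := fun N => by
    have t : Tendsto (fun n => ∑ r ∈ Finset.range N, qq (I.U (g r) I.ξ) (Θ n E))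
        (Filter.hyperfilter ℕ) (𝓝 (∑ r ∈ Finset.range N, qq (I.U (g r) I.ξ) L)) :=
      tendsto_finsetSum _ fun r _ => hq _
    simp only [qq_U I hL0 hLN hLρ, Finset.sum_const, Finset.card_range, nsmul_eq_mul] at t
    refine le_of_tendsto' t fun n => ?_
    have h2 := qq_mono (mono n _ _ (hB N)) I.ξ
    rw [map_sum, qq_sum, map_smul, qq_smul] at h2
    simp only [cov] at h2
    simp only [← URep.star_apply, qq_conj] at h2
    have h3 := qq_mono (up n) I.ξ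
    rw [qq_one] at h3
    have h4 := qq_nonneg (pos n 1 zero_le_one) I.ξ
    exact h2.trans ((mul_le_mul_of_nonneg_right (le_abs_self B) h4).trans
      (mul_le_mul_of_nonneg_left h3 (abs_nonneg B)))
  have hz : qq I.ξ L = 0 := by
    refine le_antisymm (not_lt.1 fun hp => ?_) (qq_nonneg hL0 _)
    obtain ⟨N, hN'⟩ := exists_nat_gt (|B| * ‖I.ξ‖ ^ 2 / qq I.ξ L)
    rw [div_lt_iff₀ hp] at hN'
    exact absurd (hN N) (not_le.2 hN')
  rw [← hz]
  exact hq _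

/-! ### amenability data -/

/-- the action on pairs of unit vectors -/
noncomputable def act (μ : Γ) (z : V × V) : V × V :=
  (nrm (ac (ι μ) z.1), nrm (ac (ι (dl μ)) z.2))

/-- flags -/
def Fl : Set (V × V) := {z | ‖z.1‖ = 1 ∧ ‖z.2‖ = 1 ∧ z.1 ⬝ᵥ z.2 = 0}

lemma measurable_act (μ : Γ) : Measurable (act μ) := by
  unfold act
  fun_prop

lemma measurableSet_Fl : MeasurableSet Fl := by
  refine IsClosed.measurableSet ?_
  exact (isClosed_eq (by fun_prop) continuous_const).inter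
    ((isClosed_eq (by fun_prop) continuous_const).inter
      (isClosed_eq (by fun_prop) continuous_const))

/-- a finitely supported, piecewise constant family of weights -/
structure AmD where
  J : Type
  [fin : Fintype J]
  p : V × V → J
  c : Γ → J → ℝ
  F : Finset Γ
  meas : ∀ i, MeasurableSet (p ⁻¹' {i})
  ev : ∀ a b, p (-a, b) = p (a, b) ∧ p (a, -b) = p (a, b)
  c0 : ∀ μ i, 0 ≤ c μ i
  supp : ∀ μ, μ ∉ F → ∀ i, c μ i = 0
  lo : ∀ z ∈ Fl, 1 / 2 ≤ ∑ μ ∈ F, c μ (p (act μ z))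
  up : ∀ z ∈ Fl, ∑ μ ∈ F, c μ (p (act μ z)) ≤ 1

attribute [instance] AmD.fin

/-- amenability of the action on flags -/
def AmStmt : Prop :=
  ∃ D : ℕ → AmD, ∀ κ : Γ, ∀ ε > 0, ∀ᶠ n in atTop, ∀ z ∈ Fl, ∀ S : Finset Γ,
    ∑ μ ∈ S, |(D n).c (μ * κ⁻¹) ((D n).p (act μ z)) - (D n).c μ ((D n).p (act μ z))| ≤ ε

variable (P : POVM (V × V) K) (D : AmD)

/-- square root of the mass of a cell -/
noncomputable def sq (i : D.J) : K →L[ℂ] K := CFC.sqrt (P.E (ic (D.p ⁻¹' {i})))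

/-- the averaging map -/
noncomputable def Th (d : Γ → D.J → ℝ) (S : Finset Γ) : (K →L[ℂ] K) →ₗ[ℂ] (K →L[ℂ] K) :=
  ∑ μ ∈ S, ∑ i, (d μ i : ℂ) •
    (LinearMap.mulRight ℂ (sq P D i * I.ρ μ) ∘ₗ LinearMap.mulLeft ℂ (star (sq P D i * I.ρ μ)))

lemma Th_apply (d : Γ → D.J → ℝ) (S : Finset Γ) (T : K →L[ℂ] K) :
    Th I P D d S T = ∑ μ ∈ S, ∑ i, (d μ i : ℂ) •
      (star (sq P D i * I.ρ μ) * T * (sq P D i * I.ρ μ)) := by
  simp only [Th, LinearMap.sum_apply, LinearMap.smul_apply, LinearMap.comp_apply,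
    LinearMap.mulRight_apply, LinearMap.mulLeft_apply]

lemma qq_Th (d : Γ → D.J → ℝ) (S : Finset Γ) (T : K →L[ℂ] K) (η : K) :
    qq η (Th I P D d S T) = ∑ μ ∈ S, ∑ i, d μ i * qq (sq P D i (I.ρ μ η)) T := by
  simp only [Th_apply, qq_sum, qq_smul, qq_conj, mul_apply_eq_comp]

lemma E_ic_nonneg {O : Set (V × V)} (hO : MeasurableSet O) : 0 ≤ P.E (ic O) :=
  nonneg_of_inner fun η => by
    rw [P.inner_ic hO]
    exact_mod_cast measureReal_nonneg

lemma ae_Fl (hP : P.E (ic Fl) = 1) (η : K) : ∀ᵐ z ∂(P.ν η), z ∈ Fl := by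
  have := P.fin η
  have h2 : (P.ν η).real Fl = ‖η‖ ^ 2 := by
    rw [← qq_one, qq, ← hP, P.inner_ic measurableSet_Fl, Complex.ofReal_re]
  have h3 : (P.ν η).real Flᶜ = 0 := by
    rw [measureReal_compl measurableSet_Fl, P.ν_univ, h2, sub_self]
  exact (measureReal_eq_zero_iff (measure_ne_top _ _)).1 h3

variable {I P}

/-- covariance hypothesis -/
def Cov (I : Ind K) (P : POVM (V × V) K) : Prop :=
  ∀ f, BM f → (∀ a b, f (-a, b) = f (a, b) ∧ f (a, -b) = f (a, b)) → ∀ ν : Γ,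
    I.ρ ν * P.E f * I.ρ ν⁻¹ = P.E fun z => f (act ν⁻¹ z)

lemma qq_Th_one (hc : Cov I P) (d : Γ → D.J → ℝ) (S : Finset Γ) (η : K) :
    Integrable (fun z => ∑ μ ∈ S, d μ (D.p (act μ z))) (P.ν η) ∧
    qq η (Th I P D d S 1) = ∫ z, ∑ μ ∈ S, d μ (D.p (act μ z)) ∂(P.ν η) := by
  classical
  have := P.fin η
  have hm : ∀ μ i, MeasurableSet (act μ ⁻¹' (D.p ⁻¹' {i})) := fun μ i =>
    measurable_act μ (D.meas i)
  have e1 : ∀ μ i, qq (sq P D i (I.ρ μ η)) 1 = (P.ν η).real (act μ ⁻¹' (D.p ⁻¹' {i})) := by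
    intro μ i
    have h := hc (ic (D.p ⁻¹' {i})) (BM.ic (D.meas i))
      (fun a b => by simp only [ic_apply, Set.mem_preimage, (D.ev a b).1, (D.ev a b).2, and_self])
      μ⁻¹
    rw [inv_inv, ← URep.star_apply] at h
    rw [← qq_conj, sq, star_sqrt, mul_one, CFC.sqrt_mul_sqrt_self _ (E_ic_nonneg P (D.meas i)),
      ← qq_conj, h, qq]
    have h2 : (fun z => ic (D.p ⁻¹' {i}) (act μ z)) = ic (act μ ⁻¹' (D.p ⁻¹' {i})) :=
      funext fun z => (ic_preimage _ _ z).symm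
    rw [h2, P.inner_ic (hm μ i), Complex.ofReal_re]
  have e2 : ∀ μ z, d μ (D.p (act μ z))
      = ∑ i, (act μ ⁻¹' (D.p ⁻¹' {i})).indicator (fun _ => d μ i) z := fun μ z => by
    rw [Finset.sum_eq_single (D.p (act μ z))]
    · rw [Set.indicator_of_mem (by simp)]
    · intro i _ hi
      rw [Set.indicator_of_notMem (by simpa using hi.symm)]
    · simp
  have hi : ∀ μ i, Integrable ((act μ ⁻¹' (D.p ⁻¹' {i})).indicator fun _ => d μ i) (P.ν η) :=
    fun μ i => (integrable_const _).indicator (hm μ i)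
  simp only [e2]
  refine ⟨integrable_finsetSum _ fun μ _ => integrable_finsetSum _ fun i _ => hi μ i, ?_⟩
  rw [qq_Th, integral_finsetSum _ fun μ _ => integrable_finsetSum _ fun i _ => hi μ i]
  refine Finset.sum_congr rfl fun μ _ => ?_
  rw [integral_finsetSum _ fun i _ => hi μ i]
  refine Finset.sum_congr rfl fun i _ => ?_
  rw [e1, integral_indicator_const _ (hm μ i), smul_eq_mul, mul_comm]

lemma qq_Th_one_le (hP : P.E (ic Fl) = 1) (hc : Cov I P) {d : Γ → D.J → ℝ} {S : Finset Γ} {C : ℝ}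
    (h : ∀ z ∈ Fl, ∑ μ ∈ S, d μ (D.p (act μ z)) ≤ C) (η : K) :
    qq η (Th I P D d S 1) ≤ C * ‖η‖ ^ 2 := by
  have := P.fin η
  obtain ⟨h1, h2⟩ := qq_Th_one D hc d S η
  rw [h2, ← P.ν_univ, mul_comm, ← smul_eq_mul, ← integral_const]
  exact integral_mono_ae h1 (integrable_const _) ((ae_Fl P hP η).mono h)

lemma le_qq_Th_one (hP : P.E (ic Fl) = 1) (hc : Cov I P) {d : Γ → D.J → ℝ} {S : Finset Γ} {C : ℝ}
    (h : ∀ z ∈ Fl, C ≤ ∑ μ ∈ S, d μ (D.p (act μ z))) (η : K) :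
    C * ‖η‖ ^ 2 ≤ qq η (Th I P D d S 1) := by
  have := P.fin η
  obtain ⟨h1, h2⟩ := qq_Th_one D hc d S η
  rw [h2, ← P.ν_univ, mul_comm, ← smul_eq_mul, ← integral_const]
  exact integral_mono_ae (integrable_const _) h1 ((ae_Fl P hP η).mono h)

lemma Th_nonneg {T : K →L[ℂ] K} (hT : 0 ≤ T) : 0 ≤ Th I P D D.c D.F T := by
  rw [Th_apply]
  refine Finset.sum_nonneg fun μ _ => Finset.sum_nonneg fun i _ => ?_
  exact smul_nonneg (by exact_mod_cast D.c0 μ i) (star_left_conjugate_nonneg hT _)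

lemma Th_mem (hN : ∀ f, BM f → P.E f ∈ I.N) {T : K →L[ℂ] K} (hT : T ∈ I.N) :
    Th I P D D.c D.F T ∈ I.N := by
  have h : ∀ μ i, sq P D i * I.ρ μ ∈ I.N := fun μ i =>
    Set.mul_mem_centralizer (sqrt_mem I (hN _ (BM.ic (D.meas i)))) (ρ_mem I μ)
  intro a ha
  rw [Th_apply]
  refine Commute.sum_right _ _ _ fun μ _ => Commute.sum_right _ _ _ fun i _ => Commute.smul_right ?_ _
  exact Set.mul_mem_centralizer (Set.mul_mem_centralizer
    (Set.star_mem_centralizer' I.star_C (h μ i)) hT) (h μ i) a ha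

lemma Th_cov {g : G} (hg : ∀ f, BM f → Commute (P.E f) (I.U g)) (T : K →L[ℂ] K) :
    Th I P D D.c D.F (I.U g⁻¹ * T * I.U g) = I.U g⁻¹ * Th I P D D.c D.F T * I.U g := by
  simp only [Th_apply, Finset.mul_sum, Finset.sum_mul, mul_smul_comm, smul_mul_assoc]
  refine Finset.sum_congr rfl fun μ _ => Finset.sum_congr rfl fun i _ => ?_
  have h : Commute (sq P D i * I.ρ μ) (I.U g) :=
    (sqrt_commute (hg _ (BM.ic (D.meas i)))).mul_left (I.Uρ g μ).symm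
  have h' := h.star_star
  rw [URep.star_apply] at h'
  congr 1
  generalize sq P D i * I.ρ μ = A at h h'
  rw [← mul_assoc, ← mul_assoc, h'.eq]
  simp only [mul_assoc, h.eq]

lemma Th_shift (hP : P.E (ic Fl) = 1) (hc : Cov I P) {T : K →L[ℂ] K} (h0 : 0 ≤ T) (h1 : T ≤ 1)
    (κ : Γ) {ε : ℝ} (h : ∀ z ∈ Fl, ∀ S : Finset Γ,
      ∑ μ ∈ S, |D.c (μ * κ⁻¹) (D.p (act μ z)) - D.c μ (D.p (act μ z))| ≤ ε) (η : K) :
    |qq (I.ρ κ η) (Th I P D D.c D.F T) - qq η (Th I P D D.c D.F T)| ≤ ε * ‖η‖ ^ 2 := by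
  classical
  set S := D.F ∪ D.F.map (Equiv.mulRight κ).toEmbedding with hS
  have e1 : qq η (Th I P D D.c D.F T) = ∑ μ ∈ S, ∑ i, D.c μ i * qq (sq P D i (I.ρ μ η)) T := by
    rw [qq_Th]
    exact Finset.sum_subset Finset.subset_union_left fun μ _ hμ => by simp [D.supp μ hμ]
  have e2 : qq (I.ρ κ η) (Th I P D D.c D.F T)
      = ∑ μ ∈ S, ∑ i, D.c (μ * κ⁻¹) i * qq (sq P D i (I.ρ μ η)) T := by
    rw [qq_Th, ← Finset.sum_subset (Finset.subset_union_right (s₁ := D.F)), Finset.sum_map]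
    · simp
    · intro μ _ hμ
      have : μ * κ⁻¹ ∉ D.F := fun h => hμ (Finset.mem_map.2 ⟨_, h, by simp⟩)
      simp [D.supp _ this]
  refine le_trans ?_ (qq_Th_one_le D hP hc (d := fun μ i => |D.c (μ * κ⁻¹) i - D.c μ i|) (S := S)
    (fun z hz => h z hz S) η)
  rw [e1, e2, ← Finset.sum_sub_distrib, qq_Th]
  refine (Finset.abs_sum_le_sum_abs _ _).trans (Finset.sum_le_sum fun μ _ => ?_)
  rw [← Finset.sum_sub_distrib]
  refine (Finset.abs_sum_le_sum_abs _ _).trans (Finset.sum_le_sum fun i _ => ?_)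
  rw [← sub_mul, abs_mul, abs_of_nonneg (qq_nonneg h0 _)]
  exact mul_le_mul_of_nonneg_left (qq_mono h1 _) (abs_nonneg _)

theorem amen_of (hA : AmStmt) : AmenStmt := by
  intro K _ _ _ I ⟨E₁, m₁, E₂, m₂, B, p₁, p₂, hE, hB⟩ P hP hN hU hc
  obtain ⟨D, hD⟩ := hA
  have hc' : Cov I P := hc
  have hP' : P.E (ic Fl) = 1 := hP
  let Θ := fun n => Th I P (D n) (D n).c (D n).F
  have pos : ∀ n T, 0 ≤ T → 0 ≤ Θ n T := fun n T hT => Th_nonneg (D n) hT
  have up : ∀ n, Θ n 1 ≤ 1 := fun n => le_one_of_qq (pos n 1 zero_le_one) fun η => by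
    simpa using qq_Th_one_le (D n) hP' hc' (D n).up η
  have inv : ∀ T, 0 ≤ T → T ≤ 1 → ∀ κ η,
      Tendsto (fun n => qq (I.ρ κ η) (Θ n T) - qq η (Θ n T)) atTop (𝓝 0) := by
    intro T h0 h1 κ η
    refine Metric.tendsto_nhds.2 fun ε hε => ?_
    filter_upwards [hD κ (ε / (‖η‖ ^ 2 + 1)) (by positivity)] with n hn
    rw [Real.dist_0_eq_abs]
    refine (Th_shift (D n) hP' hc' h0 h1 κ hn η).trans_lt ?_
    rw [div_mul_eq_mul_div, div_lt_iff₀ (by positivity)]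
    linarith
  have l₁ : E₁ ≤ 1 := hE ▸ le_add_of_nonneg_right p₂
  have l₂ : E₂ ≤ 1 := hE ▸ le_add_of_nonneg_left p₁
  have t₁ := half I Θ pos up p₁ l₁ (fun n => Th_mem (D n) hN m₁) (inv _ p₁ l₁) _
    (fun n r => Th_cov (D n) (fun f hf => (hU f hf r).2) E₁) fun n => (hB n).1
  have t₂ := half I Θ pos up p₂ l₂ (fun n => Th_mem (D n) hN m₂) (inv _ p₂ l₂) _
    (fun n r => Th_cov (D n) (fun f hf => (hU f hf r).1) E₂) fun n => (hB n).2
  have t := t₁.add t₂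
  simp only [← qq_add, ← map_add, hE, add_zero] at t
  have h := ge_of_tendsto' t fun n => le_qq_Th_one (D n) hP' hc' (D n).lo I.ξ
  have := norm_pos_iff.2 I.ξ_ne
  nlinarith [pow_pos this 2]

end Crest.Agent.N111.AmenAux
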