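import Crest.Agent.N111.I.AmenA

/-!
# Row 111: `AmenStmt`, soft part of the amenability of flags: normalised weights, averaging over
cubes, rounding (helper60)
-/

set_option autoImplicit false
set_option linter.unusedSectionVars false

namespace Crest.Agent.N111.AmenAux

open MeasureTheory Topology Filter Matrix

/-! ### normalised weights -/

/-- normalisation -/
noncomputable def pr (W : Γ → ℝ) (μ : Γ) : ℝ := W μ / ∑' ν, W ν

lemma pr_nonneg {W : Γ → ℝ} (h : ∀ μ, 0 ≤ W μ) (μ : Γ) : 0 ≤ pr W μ :=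
  div_nonneg (h μ) (tsum_nonneg h)

lemma sum_pr_le {W : Γ → ℝ} (h : ∀ μ, 0 ≤ W μ) (S : Finset Γ) : ∑ μ ∈ S, pr W μ ≤ 1 := by
  simp only [pr, ← Finset.sum_div]
  by_cases hs : Summable W
  · exact div_le_one_of_le₀ (hs.sum_le_tsum S fun μ _ => h μ) (tsum_nonneg h)
  · simp [tsum_eq_zero_of_not_summable hs]

lemma hasSum_pr {W : Γ → ℝ} (hs : Summable W) (hp : 0 < ∑' ν, W ν) : HasSum (pr W) 1 := by
  have := hs.hasSum.div_const (∑' ν, W ν)
  rwa [div_self hp.ne'] at this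

lemma pr_le {W W' : Γ → ℝ} {Λ : ℝ} (h : ∀ μ, 0 ≤ W μ) (hs : Summable W) (hs' : Summable W')
    (hp : 0 < ∑' ν, W ν) (hΛ : 0 < Λ) (h1 : ∀ μ, W' μ ≤ Λ * W μ) (h2 : ∀ μ, W μ ≤ Λ * W' μ) (μ : Γ) :
    pr W' μ ≤ Λ ^ 2 * pr W μ := by
  have h3 : ∑' ν, W ν ≤ Λ * ∑' ν, W' ν := by
    rw [← tsum_mul_left]
    exact hs.tsum_le_tsum h2 (hs'.mul_left Λ)
  have hp' : 0 < ∑' ν, W' ν := (mul_pos_iff_of_pos_left hΛ).1 (hp.trans_le h3)
  rw [pr, pr, ← mul_div_assoc, div_le_div_iff₀ hp' hp]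
  calc W' μ * ∑' ν, W ν ≤ (Λ * W μ) * (Λ * ∑' ν, W' ν) :=
        mul_le_mul (h1 μ) h3 hp.le (mul_nonneg hΛ.le (h μ))
    _ = _ := by ring

lemma pr_close {W W' : Γ → ℝ} {Λ : ℝ} (h : ∀ μ, 0 ≤ W μ) (h' : ∀ μ, 0 ≤ W' μ) (hs : Summable W)
    (hs' : Summable W') (hp : 0 < ∑' ν, W ν) (hp' : 0 < ∑' ν, W' ν) (hΛ : 1 ≤ Λ)
    (h1 : ∀ μ, W' μ ≤ Λ * W μ) (h2 : ∀ μ, W μ ≤ Λ * W' μ) (S : Finset Γ) :
    ∑ μ ∈ S, |pr W' μ - pr W μ| ≤ 2 * (Λ ^ 2 - 1) := by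
  have hΛ2 : 0 ≤ Λ ^ 2 - 1 := by nlinarith
  calc ∑ μ ∈ S, |pr W' μ - pr W μ| ≤ ∑ μ ∈ S, (Λ ^ 2 - 1) * (pr W μ + pr W' μ) := by
        refine Finset.sum_le_sum fun μ _ => ?_
        have a1 := pr_le h hs hs' hp (by linarith) h1 h2 μ
        have a2 := pr_le h' hs' hs hp' (by linarith) h2 h1 μ
        have a3 := mul_nonneg hΛ2 (pr_nonneg h μ)
        have a4 := mul_nonneg hΛ2 (pr_nonneg h' μ)
        rw [abs_le]
        constructor <;> nlinarith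
    _ ≤ _ := by
        rw [← Finset.mul_sum, Finset.sum_add_distrib]
        nlinarith [sum_pr_le h S, sum_pr_le h' S]

/-! ### averaging -/

lemma sum_close {α : Type*} [DecidableEq α] {f : α → Γ → ℝ} (h0 : ∀ j μ, 0 ≤ f j μ)
    {S : Finset Γ} (h1 : ∀ j, ∑ μ ∈ S, f j μ ≤ 1) {A B Q : Finset α} (hA : Q ⊆ A) (hB : Q ⊆ B) :
    ∑ μ ∈ S, |∑ j ∈ A, f j μ - ∑ j ∈ B, f j μ| ≤ (A.card - Q.card) + (B.card - Q.card) := by
  have key : ∀ {A : Finset α}, Q ⊆ A → ∑ μ ∈ S, ∑ j ∈ A \ Q, f j μ ≤ A.card - Q.card := by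
    intro A hA
    rw [Finset.sum_comm]
    refine (Finset.sum_le_sum fun j _ => h1 j).trans ?_
    rw [Finset.sum_const, nsmul_eq_mul, mul_one, Finset.card_sdiff_of_subset hA,
      Nat.cast_sub (Finset.card_le_card hA)]
  refine le_trans (Finset.sum_le_sum fun μ _ => ?_)
    ((Finset.sum_add_distrib).trans_le (add_le_add (key hA) (key hB)))
  rw [← Finset.sum_sdiff hA, ← Finset.sum_sdiff hB, add_sub_add_right_eq_sub, abs_le]
  have a1 := Finset.sum_nonneg fun j (_ : j ∈ A \ Q) => h0 j μ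
  have a2 := Finset.sum_nonneg fun j (_ : j ∈ B \ Q) => h0 j μ
  constructor <;> linarith

/-- a cube -/
noncomputable def cube (o : Fin 3 → ℤ) (n : ℕ) : Finset (Fin 3 → ℤ) :=
  Fintype.piFinset fun i => Finset.Ico (o i) (o i + n)

lemma mem_cube {o j : Fin 3 → ℤ} {n : ℕ} : j ∈ cube o n ↔ ∀ i, o i ≤ j i ∧ j i < o i + n := by
  simp [cube]

lemma card_cube (o : Fin 3 → ℤ) (n : ℕ) : (cube o n).card = n ^ 3 := by
  simp [cube]

lemma cube_close {f f' : (Fin 3 → ℤ) → Γ → ℝ} (h0 : ∀ j μ, 0 ≤ f j μ) {S : Finset Γ}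
    (h1 : ∀ j, ∑ μ ∈ S, f j μ ≤ 1) (o σ : Fin 3 → ℤ) {n D : ℕ} (hD : 2 * D ≤ n)
    (hσ : ∀ i, |σ i| ≤ D) {ε : ℝ} (h : ∀ j ∈ cube o n, ∑ μ ∈ S, |f' j μ - f (j + σ) μ| ≤ ε) :
    ∑ μ ∈ S, |∑ j ∈ cube o n, f' j μ - ∑ j ∈ cube o n, f j μ| ≤ n ^ 3 * ε + 12 * D * n ^ 2 := by
  obtain ⟨r, rfl⟩ := Nat.exists_eq_add_of_le hD
  set n := 2 * D + r with hn
  have hn' : (n : ℤ) = 2 * D + r := by rw [hn]; push_cast; ring
  have hA : cube (fun i => o i + D) r ⊆ (cube o n).map (Equiv.addRight σ).toEmbedding := by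
    intro j hj
    refine Finset.mem_map.2 ⟨j - σ, mem_cube.2 fun i => ?_, by simp⟩
    have := mem_cube.1 hj i
    have := abs_le.1 (hσ i)
    simp only [Pi.sub_apply]
    omega
  have hB : cube (fun i => o i + D) r ⊆ cube o n := fun j hj => mem_cube.2 fun i => by
    have := mem_cube.1 hj i
    omega
  have a1 := sum_close h0 h1 hA hB
  simp only [Finset.sum_map, Finset.card_map, card_cube, Equiv.coe_toEmbedding,
    Equiv.coe_addRight] at a1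
  have a2 : ∑ μ ∈ S, |∑ j ∈ cube o n, f' j μ - ∑ j ∈ cube o n, f (j + σ) μ| ≤ n ^ 3 * ε := by
    calc _ ≤ ∑ μ ∈ S, ∑ j ∈ cube o n, |f' j μ - f (j + σ) μ| := by
          refine Finset.sum_le_sum fun μ _ => ?_
          rw [← Finset.sum_sub_distrib]
          exact Finset.abs_sum_le_sum_abs _ _
      _ ≤ ∑ j ∈ cube o n, ε := by
          rw [Finset.sum_comm]
          exact Finset.sum_le_sum h
      _ = _ := by rw [Finset.sum_const, card_cube, nsmul_eq_mul, Nat.cast_pow]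
  have a3 : ((n ^ 3 : ℕ) : ℝ) - (r ^ 3 : ℕ) ≤ 6 * D * n ^ 2 := by
    rw [hn]
    push_cast
    have hD : (0 : ℝ) ≤ D := Nat.cast_nonneg _
    have hr : (0 : ℝ) ≤ r := Nat.cast_nonneg _
    nlinarith [mul_nonneg hD hD, mul_nonneg hD hr, mul_nonneg (mul_nonneg hD hD) hD,
      mul_nonneg (mul_nonneg hD hD) hr]
  refine le_trans (Finset.sum_le_sum fun μ _ => abs_sub_le _ (∑ j ∈ cube o n, f (j + σ) μ) _) ?_
  rw [Finset.sum_add_distrib]
  linarith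

/-! ### rounding -/

/-- the linear action on pairs -/
def lin (g : G) (z : V × V) : V × V := (ac g z.1, ac (dl g) z.2)

/-- flags, not normalised -/
def Fl' : Set (V × V) := {z | z.1 ≠ 0 ∧ z.2 ≠ 0 ∧ z.1 ⬝ᵥ z.2 = 0}

lemma lin_mul (g h : G) (z : V × V) : lin (g * h) z = lin g (lin h z) := by
  simp only [lin, map_mul, ac_mul]

lemma lin_one (z : V × V) : lin 1 z = z := by simp [lin]

lemma lin_mem {z : V × V} (hz : z ∈ Fl') (g : G) : lin g z ∈ Fl' :=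
  ⟨ac_ne_zero g hz.1, ac_ne_zero _ hz.2.1, (ac_dot_ac_dl g _ _).trans hz.2.2⟩

lemma Fl_sub {z : V × V} (hz : z ∈ Fl) : z ∈ Fl' :=
  ⟨norm_ne_zero_iff.1 (by rw [hz.1]; exact one_ne_zero),
    norm_ne_zero_iff.1 (by rw [hz.2.1]; exact one_ne_zero), hz.2.2⟩

lemma measurable_lin (g : G) : Measurable (lin g) := by
  unfold lin
  fun_prop

lemma round (q : Γ → V × V → ℝ) (hm : ∀ μ, Measurable (q μ))
    (hs : ∀ μ (s t : ℝ) a b, s ≠ 0 → t ≠ 0 → q μ (s • a, t • b) = q μ (a, b))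
    (h0 : ∀ μ z, 0 ≤ q μ z) (h1 : ∀ μ z, q μ z ≤ 1) (hsum : ∀ z ∈ Fl', HasSum (fun μ => q μ z) 1)
    {h : Γ → ℝ} (hh : Summable h) (hd : ∀ z ∈ Fl', ∀ μ, q μ z ≤ h μ) {ε : ℝ} (hε : 0 < ε)
    (hε' : ε ≤ 1 / 4) : ∃ D : AmD, ∀ κ : Γ, ∀ z ∈ Fl, ∀ S : Finset Γ,
      ∑ μ ∈ S, |D.c (μ * κ⁻¹) (D.p (act μ z)) - D.c μ (D.p (act μ z))|
        ≤ ∑ μ ∈ S, |q (μ * κ⁻¹) (lin (ι κ) z) - q μ z| + 4 * ε := by
  classical
  obtain ⟨F, hF⟩ := summable_iff_vanishing_norm.1 hh ε hε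
  obtain ⟨N, hN⟩ := exists_nat_gt (F.card / ε)
  have hN0 : (0 : ℝ) < N := lt_of_le_of_lt (by positivity) hN
  let qt : Γ → V × V → ℝ := fun μ w => if μ ∈ F then (⌊N * q μ w⌋₊ : ℝ) / N else 0
  have t1 : ∀ μ w, qt μ w ≤ q μ w := fun μ w => by
    simp only [qt]
    split_ifs
    · rw [div_le_iff₀' hN0]
      exact Nat.floor_le (mul_nonneg hN0.le (h0 μ w))
    · exact h0 μ w
  have t2 : ∀ w ∈ Fl', ∀ S : Finset Γ, ∑ μ ∈ S, (q μ w - qt μ w) ≤ 2 * ε := by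
    intro w hw S
    rw [← Finset.sum_filter_add_sum_filter_not S (· ∈ F)]
    have a1 : ∑ μ ∈ S.filter (· ∈ F), (q μ w - qt μ w) ≤ ε := by
      calc _ ≤ ∑ μ ∈ S.filter (· ∈ F), (1 / N : ℝ) := by
            refine Finset.sum_le_sum fun μ hμ => ?_
            simp only [qt, if_pos (Finset.mem_filter.1 hμ).2]
            rw [sub_le_iff_le_add, ← add_div, le_div_iff₀' hN0]
            linarith [Nat.lt_floor_add_one (N * q μ w)]
        _ ≤ F.card * (1 / N) := by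
            rw [Finset.sum_const, nsmul_eq_mul]
            gcongr
            exact fun μ hμ => (Finset.mem_filter.1 hμ).2
        _ ≤ ε := by
            rw [div_lt_iff₀ hε] at hN
            rw [mul_one_div, div_le_iff₀ hN0]
            linarith
    have a2 : ∑ μ ∈ S.filter (¬ · ∈ F), (q μ w - qt μ w) ≤ ε := by
      have := hF (S.filter (¬ · ∈ F)) (Finset.disjoint_left.2 fun μ hμ => (Finset.mem_filter.1 hμ).2)
      refine le_trans (Finset.sum_le_sum fun μ hμ => ?_) ((le_abs_self _).trans this.le)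
      simp only [qt, if_neg (Finset.mem_filter.1 hμ).2, sub_zero]
      exact hd w hw μ
    linarith
  let p : V × V → F → Fin (N + 1) := fun z μ => ⟨⌊N * q μ (lin (ι μ)⁻¹ z)⌋₊,
    Nat.lt_succ_of_le (Nat.floor_le_of_le (mul_le_of_le_one_right hN0.le (h1 _ _)))⟩
  let c : Γ → (F → Fin (N + 1)) → ℝ := fun μ i => if h : μ ∈ F then ((i ⟨μ, h⟩ : ℕ) : ℝ) / N else 0
  have e1 : ∀ ν μ, ∀ z ∈ Fl', c ν (p (act μ z)) = qt ν (lin ((ι ν)⁻¹ * ι μ) z) := by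
    intro ν μ z hz
    have : q ν (lin (ι ν)⁻¹ (act μ z)) = q ν (lin ((ι ν)⁻¹ * ι μ) z) := by
      rw [lin_mul]
      simp only [lin, act, nrm, ac_smul, ι_dl]
      exact hs _ _ _ _ _ (inv_ne_zero (norm_ne_zero_iff.2 (ac_ne_zero _ hz.1)))
        (inv_ne_zero (norm_ne_zero_iff.2 (ac_ne_zero _ hz.2.1)))
    simp only [c, p, qt, this]
    split_ifs <;> rfl
  have e2 : ∀ μ, ∀ z ∈ Fl', c μ (p (act μ z)) = qt μ z := fun μ z hz => by
    rw [e1 μ μ z hz, inv_mul_cancel, lin_one]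
  refine ⟨⟨F → Fin (N + 1), p, c, F, fun i => ?_, fun a b => ?_, fun μ i => ?_, fun μ hμ i => dif_neg hμ,
    fun z hz => ?_, fun z hz => ?_⟩, fun κ z hz S => ?_⟩
  · have : p ⁻¹' {i} = ⋂ μ : F, (fun z => ⌊N * q μ (lin (ι μ)⁻¹ z)⌋₊) ⁻¹' {(i μ : ℕ)} := by
      ext z
      simp only [Set.mem_preimage, Set.mem_singleton_iff, Set.mem_iInter, funext_iff, Fin.ext_iff, p]
    rw [this]
    exact MeasurableSet.iInter fun μ =>
      (((hm μ).comp (measurable_lin _)).const_mul _).nat_floor (measurableSet_singleton _)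
  · constructor <;> funext μ <;> apply Fin.ext <;> simp only [p, lin, ac_neg]
    · rw [← neg_one_smul ℝ (ac _ a), ← one_smul ℝ (ac _ b), hs _ _ _ _ _ (by simp) one_ne_zero,
        one_smul]
    · rw [← neg_one_smul ℝ (ac _ b), ← one_smul ℝ (ac _ a), hs _ _ _ _ _ one_ne_zero (by simp),
        one_smul]
  · simp only [c]
    split_ifs <;> positivity
  · simp only [e2 _ z (Fl_sub hz)]
    have : 1 ≤ ∑ μ ∈ F, qt μ z + 2 * ε := by
      refine le_of_tendsto (hsum z (Fl_sub hz)) ((eventually_ge_atTop F).mono fun S hS => ?_)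
      have a1 := t2 z (Fl_sub hz) S
      rw [Finset.sum_sub_distrib,
        ← Finset.sum_subset hS (f := fun μ => qt μ z) fun μ _ hμ => if_neg hμ] at a1
      linarith
    linarith
  · simp only [e2 _ z (Fl_sub hz)]
    exact (Finset.sum_le_sum fun μ _ => t1 μ z).trans
      (sum_le_hasSum F (fun μ _ => h0 μ z) (hsum z (Fl_sub hz)))
  · have hz' := Fl_sub hz
    have e3 : ∀ μ, c (μ * κ⁻¹) (p (act μ z)) = qt (μ * κ⁻¹) (lin (ι κ) z) := fun μ => by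
      rw [e1 _ μ z hz']
      congr 2
      simp
    change ∑ μ ∈ S, |c (μ * κ⁻¹) (p (act μ z)) - c μ (p (act μ z))| ≤ _
    simp only [e3, e2 _ z hz']
    have a1 := t2 z hz' S
    have a2 := t2 _ (lin_mem hz' (ι κ)) (S.map (Equiv.mulRight κ⁻¹).toEmbedding)
    simp only [Finset.sum_map, Equiv.coe_toEmbedding, Equiv.coe_mulRight] at a2
    refine le_trans (Finset.sum_le_sum (g := fun μ => |q (μ * κ⁻¹) (lin (ι κ) z) - q μ z|
      + (q μ z - qt μ z) + (q (μ * κ⁻¹) (lin (ι κ) z) - qt (μ * κ⁻¹) (lin (ι κ) z)))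
      fun μ _ => ?_) ?_
    · have b1 := t1 μ z
      have b2 := t1 (μ * κ⁻¹) (lin (ι κ) z)
      have b3 := le_abs_self (q (μ * κ⁻¹) (lin (ι κ) z) - q μ z)
      have b4 := neg_abs_le (q (μ * κ⁻¹) (lin (ι κ) z) - q μ z)
      rw [abs_le]
      constructor <;> linarith
    · rw [Finset.sum_add_distrib, Finset.sum_add_distrib]
      linarith

/-! ### summability -/

lemma exists_summable : ∃ m : ℕ, Summable fun μ : Γ => (nm (ι μ))⁻¹ ^ m := by
  let L := Submodule.span ℤ (Set.range (Pi.basisFun ℝ (Fin 3 × Fin 3)))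
  let e : Γ → L := fun μ => ⟨fun p => (μ p.1 p.2 : ℤ),
    (Module.Basis.mem_span_iff_repr_mem ℤ _ _).2 fun p => ⟨μ p.1 p.2, by simp⟩⟩
  have he : Function.Injective e := fun a b h => by
    ext i j
    have : ((a i j : ℤ) : ℝ) = (b i j : ℤ) := congrFun (congrArg Subtype.val h) (i, j)
    exact_mod_cast this
  refine ⟨Module.finrank ℤ L + 1,
    ((ZLattice.summable_norm_pow_inv L _ (Nat.lt_succ_self _)).comp_injective he).congr fun μ => ?_⟩
  have : ‖e μ‖ = nm (ι μ) := by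
    refine le_antisymm ((pi_norm_le_iff_of_nonneg (nm_pos _).le).2 fun p => abs_le_nm (ι μ) p.1 p.2)
      ((pi_norm_le_iff_of_nonneg (norm_nonneg _)).2 fun i =>
        (pi_norm_le_iff_of_nonneg (norm_nonneg _)).2 fun j => norm_le_pi_norm (e μ).1 (i, j))
  rw [Function.comp_apply, this]

end Crest.Agent.N111.AmenAux
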